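import Vale.Agent.P130.Rank.Defs

/-!
Elementary integrals over one period used for the exponential sums of graphs.
-/

open Real Finset MeasureTheory
open Vale.Agent.P110.Exist (e e_add e_neg e_int e_add_int norm_e continuous_e e_zero)

namespace Vale.Agent.P130.Rank.FlatGraph

/-- `g` is measurable and bounded. -/
def BddMeas {E : Type*} [Norm E] [MeasurableSpace E] (g : ℝ → E) : Prop :=
  Measurable g ∧ ∃ C : ℝ, ∀ x, ‖g x‖ ≤ C

section

variable {g g' : ℝ → ℂ}

lemma BddMeas.of_continuous_periodic (hc : Continuous g) (hp : Function.Periodic g 1) :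
    BddMeas g := by
  obtain ⟨C, hC⟩ := (isCompact_Icc (a := (0 : ℝ)) (b := 1)).exists_bound_of_continuousOn
    hc.continuousOn
  refine ⟨hc.measurable, C, fun x => ?_⟩
  obtain ⟨y, hy, hxy⟩ := hp.exists_mem_Ico₀ one_pos x
  rw [hxy]
  exact hC y ⟨hy.1, hy.2.le⟩

lemma BddMeas.const (c : ℂ) : BddMeas fun _ : ℝ => c :=
  ⟨measurable_const, ‖c‖, fun _ => le_rfl⟩

lemma BddMeas.add (h : BddMeas g) (h' : BddMeas g') : BddMeas fun x => g x + g' x := by
  obtain ⟨hm, C, hC⟩ := h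
  obtain ⟨hm', C', hC'⟩ := h'
  exact ⟨hm.add hm', C + C', fun x => (norm_add_le _ _).trans (add_le_add (hC x) (hC' x))⟩

lemma BddMeas.sub (h : BddMeas g) (h' : BddMeas g') : BddMeas fun x => g x - g' x := by
  obtain ⟨hm, C, hC⟩ := h
  obtain ⟨hm', C', hC'⟩ := h'
  exact ⟨hm.sub hm', C + C', fun x => (norm_sub_le _ _).trans (add_le_add (hC x) (hC' x))⟩

lemma BddMeas.mul (h : BddMeas g) (h' : BddMeas g') : BddMeas fun x => g x * g' x := by
  obtain ⟨hm, C, hC⟩ := h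
  obtain ⟨hm', C', hC'⟩ := h'
  refine ⟨hm.mul hm', C * C', fun x => ?_⟩
  rw [norm_mul]
  exact mul_le_mul (hC x) (hC' x) (norm_nonneg _) ((norm_nonneg _).trans (hC x))

lemma BddMeas.sum {κ : Type*} (s : Finset κ) (G : κ → ℝ → ℂ) (h : ∀ z ∈ s, BddMeas (G z)) :
    BddMeas fun x => ∑ z ∈ s, G z x := by
  choose hm C hC using h
  refine ⟨Finset.measurable_sum s (fun z hz => hm z hz), ∑ z : ↥s, C z.1 z.2, fun x => ?_⟩
  dsimp only
  rw [← Finset.sum_coe_sort s]
  exact (norm_sum_le _ _).trans (Finset.sum_le_sum fun z _ => hC z.1 z.2 x)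

lemma BddMeas.comp {φ : ℝ → ℝ} (h : BddMeas g) (hφ : Measurable φ) : BddMeas fun x => g (φ x) := by
  obtain ⟨hm, C, hC⟩ := h
  exact ⟨hm.comp hφ, C, fun x => hC _⟩

lemma BddMeas.conj (h : BddMeas g) : BddMeas fun x => (starRingEnd ℂ) (g x) := by
  obtain ⟨hm, C, hC⟩ := h
  exact ⟨Complex.continuous_conj.measurable.comp hm, C, fun x => by simpa using hC x⟩

lemma BddMeas.norm (h : BddMeas g) : BddMeas fun x => ‖g x‖ := by
  obtain ⟨hm, C, hC⟩ := h
  exact ⟨hm.norm, C, fun x => by simpa using hC x⟩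

end

lemma BddMeas.ii {E : Type*} [NormedAddCommGroup E] [MeasurableSpace E] [BorelSpace E]
    [SecondCountableTopology E] {g : ℝ → E} (h : BddMeas g) (a b : ℝ) :
    IntervalIntegrable g volume a b := by
  obtain ⟨hm, C, hC⟩ := h
  refine IntervalIntegrable.mono_fun' (g := fun _ => C) intervalIntegrable_const
    hm.aestronglyMeasurable (Filter.Eventually.of_forall hC)

lemma BddMeas.sq {g : ℝ → ℝ} (h : BddMeas g) : BddMeas fun x => g x ^ 2 := by
  obtain ⟨hm, C, hC⟩ := h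
  refine ⟨hm.pow_const 2, C ^ 2, fun x => ?_⟩
  rw [norm_pow]
  exact pow_le_pow_left₀ (norm_nonneg _) (hC x) 2

/-- Cauchy-Schwarz on one period. -/
lemma integral_norm_le_sqrt {g : ℝ → ℂ} (h : BddMeas g) {B : ℝ}
    (hB : ∫ x in (0 : ℝ)..1, ‖g x‖ ^ 2 ≤ B) : ∫ x in (0 : ℝ)..1, ‖g x‖ ≤ √B := by
  set A := ∫ x in (0 : ℝ)..1, ‖g x‖ with hA
  refine Real.le_sqrt_of_sq_le (le_trans ?_ hB)
  have h0 : 0 ≤ ∫ x in (0 : ℝ)..1, (‖g x‖ - A) ^ 2 :=
    intervalIntegral.integral_nonneg zero_le_one fun x _ => sq_nonneg _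
  have e1 : (fun x => (‖g x‖ - A) ^ 2) = fun x => ‖g x‖ ^ 2 - (2 * A * ‖g x‖ - A ^ 2) := by
    funext x; ring
  rw [e1, intervalIntegral.integral_sub (h.norm.sq.ii 0 1)
    (((h.norm.ii 0 1).const_mul (2 * A)).sub intervalIntegrable_const),
    intervalIntegral.integral_sub ((h.norm.ii 0 1).const_mul (2 * A)) intervalIntegrable_const,
    intervalIntegral.integral_const_mul, intervalIntegral.integral_const, ← hA] at h0
  simp only [sub_zero, one_smul] at h0
  linarith [h0]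

/-- A periodic function has the same integral after `τ ↦ τ + c` and `τ ↦ c - τ`. -/
lemma integral_shift {g : ℝ → ℝ} (hp : Function.Periodic g 1) (c : ℝ) :
    (∫ x in (0 : ℝ)..1, g (x + c)) = (∫ x in (0 : ℝ)..1, g x) ∧
      (∫ x in (0 : ℝ)..1, g (c - x)) = ∫ x in (0 : ℝ)..1, g x := by
  constructor
  · rw [intervalIntegral.integral_comp_add_right, zero_add, add_comm 1 c,
      hp.intervalIntegral_add_eq c 0, zero_add]
  · rw [intervalIntegral.integral_comp_sub_left, sub_zero]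
    have h := hp.intervalIntegral_add_eq (c - 1) 0
    rwa [sub_add_cancel, zero_add] at h

lemma integral_e_int (z : ℤ) :
    ∫ x in (0 : ℝ)..1, e (x * z) = if z = 0 then 1 else 0 := by
  by_cases hz : z = 0
  · simp [hz]
  rw [if_neg hz]
  have hc : (2 * π * (z : ℝ) : ℝ) * Complex.I ≠ 0 := by
    simp [hz, Real.pi_ne_zero]
  have e1 : ∀ x : ℝ, e (x * z) = Complex.exp ((((2 * π * (z : ℝ) : ℝ) : ℂ) * Complex.I) * x) := by
    intro x
    rw [e]
    congr 1
    push_cast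
    ring
  simp only [e1]
  rw [integral_exp_mul_complex hc]
  have h0 : Complex.exp ((((2 * π * (z : ℝ) : ℝ) : ℂ) * Complex.I) * ((1 : ℝ) : ℂ)) = 1 := by
    rw [← e1, one_mul]; exact e_int z
  rw [h0]
  simp

/-- Parseval for finitely many frequencies. -/
lemma parseval (m : ℕ) (a : ℕ → ℂ) :
    ∫ x in (0 : ℝ)..1, ‖∑ j ∈ range m, a j * e (x * j)‖ ^ 2 = ∑ j ∈ range m, ‖a j‖ ^ 2 := by
  have key : ∫ x in (0 : ℝ)..1, ((‖∑ j ∈ range m, a j * e (x * j)‖ ^ 2 : ℝ) : ℂ) =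
      ((∑ j ∈ range m, ‖a j‖ ^ 2 : ℝ) : ℂ) := by
    have e1 : ∀ x : ℝ, ((‖∑ j ∈ range m, a j * e (x * j)‖ ^ 2 : ℝ) : ℂ) =
        ∑ j ∈ range m, ∑ k ∈ range m,
          a j * (starRingEnd ℂ) (a k) * e (x * (((j : ℤ) - k : ℤ) : ℝ)) := by
      intro x
      rw [Complex.ofReal_pow, ← Complex.mul_conj', map_sum, Finset.sum_mul_sum]
      refine sum_congr rfl fun j _ => sum_congr rfl fun k _ => ?_
      rw [map_mul, ← e_neg,
        show x * (((j : ℤ) - k : ℤ) : ℝ) = x * (j : ℝ) + -(x * (k : ℝ)) by push_cast; ring, e_add]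
      ring
    simp only [e1]
    have hint : ∀ (j k : ℕ), IntervalIntegrable
        (fun x : ℝ => a j * (starRingEnd ℂ) (a k) * e (x * (((j : ℤ) - k : ℤ) : ℝ))) volume 0 1 :=
      fun j k => ((continuous_e.comp (continuous_id.mul continuous_const)).const_mul _
        ).intervalIntegrable _ _
    have hint2 : ∀ j : ℕ, IntervalIntegrable (fun x : ℝ => ∑ k ∈ range m,
        a j * (starRingEnd ℂ) (a k) * e (x * (((j : ℤ) - k : ℤ) : ℝ))) volume 0 1 :=
      fun j => (Continuous.intervalIntegrable (continuous_finsetSum _ fun k _ =>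
        (continuous_e.comp (continuous_id.mul continuous_const)).const_mul _) _ _)
    rw [intervalIntegral.integral_finsetSum fun j _ => hint2 j]
    push_cast
    refine sum_congr rfl fun j hj => ?_
    rw [intervalIntegral.integral_finsetSum fun k _ => by simpa using hint j k]
    rw [Finset.sum_eq_single j]
    · rw [intervalIntegral.integral_const_mul]
      rw [show (fun x : ℝ => e (x * ((j : ℝ) - (j : ℝ)))) = fun _ => 1 from
        funext fun x => by simp]
      simp [Complex.mul_conj']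
    · intro k _ hk
      rw [intervalIntegral.integral_const_mul]
      have h := integral_e_int ((j : ℤ) - k)
      rw [if_neg (by omega : ¬ ((j : ℤ) - k = 0))] at h
      push_cast at h
      rw [h, mul_zero]
    · simp [hj]
  rw [intervalIntegral.integral_ofReal] at key
  exact_mod_cast key

lemma sum_range_mul_split {β : Type*} [AddCommMonoid β] (a b : ℕ) (g : ℕ → β) :
    ∑ j ∈ range (a * b), g j = ∑ i ∈ range a, ∑ s ∈ range b, g (i * b + s) := by
  induction a with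
  | zero => simp
  | succ a ih => rw [Nat.succ_mul, Finset.sum_range_add, Finset.sum_range_succ, ih]

lemma floor_fract_of_lt {q u m : ℕ} {y : ℝ} (hq : 0 < q) (hum : u + m ≤ q)
    (h : Int.fract (y - (u : ℝ) / q) < (m : ℝ) / q) :
    ∃ l < m, ⌊Int.fract y * q⌋₊ = u + l := by
  have hqR : (0 : ℝ) < q := by exact_mod_cast hq
  set a := Int.fract y with ha
  have h0 : 0 ≤ a := Int.fract_nonneg y
  have h1 : a < 1 := Int.fract_lt_one y
  have e1 : Int.fract (y - (u : ℝ) / q) = Int.fract (a - (u : ℝ) / q) :=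
    (Int.fract_eq_fract).2 ⟨⌊y⌋, by rw [ha, Int.fract]; ring⟩
  rw [e1] at h
  have humR : (u : ℝ) + m ≤ q := by exact_mod_cast hum
  have hu1 : (u : ℝ) / q + (m : ℝ) / q ≤ 1 := by
    rw [← add_div, div_le_one hqR]; exact humR
  have hm0 : 0 ≤ (m : ℝ) / q := by positivity
  rcases lt_or_ge a ((u : ℝ) / q) with hlt | hge
  · exfalso
    have e2 : Int.fract (a - (u : ℝ) / q) = a - (u : ℝ) / q + 1 :=
      Int.fract_eq_iff.2 ⟨by linarith, by linarith, -1, by push_cast; ring⟩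
    rw [e2] at h
    linarith
  · rw [Int.fract_eq_self.2 ⟨by linarith, by linarith [(by positivity : (0 : ℝ) ≤ (u : ℝ) / q)]⟩] at h
    rw [div_le_iff₀ hqR] at hge
    rw [sub_lt_iff_lt_add, ← add_div, lt_div_iff₀ hqR] at h
    have h2 : u ≤ ⌊a * q⌋₊ := Nat.le_floor hge
    have h3 : ⌊a * q⌋₊ < u + m := by
      rw [Nat.floor_lt (mul_nonneg h0 hqR.le)]; push_cast; linarith
    exact ⟨⌊a * q⌋₊ - u, by omega, by omega⟩

lemma floor_fract_neg {q : ℕ} {y : ℝ} (hq : 0 < q) (hy : ∀ z : ℤ, y * q ≠ z) :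
    ⌊Int.fract (-y) * q⌋₊ = q - 1 - ⌊Int.fract y * q⌋₊ := by
  have hqR : (0 : ℝ) < q := by exact_mod_cast hq
  have hne : Int.fract y ≠ 0 := by
    intro h
    obtain ⟨z, hz⟩ := Int.fract_eq_zero_iff.1 h
    exact hy (z * q) (by rw [← hz]; push_cast; ring)
  rw [Int.fract_neg hne]
  set a := Int.fract y with ha
  have h0 : 0 ≤ a * q := mul_nonneg (Int.fract_nonneg y) hqR.le
  have h2 := Nat.floor_le h0
  have h3 := Nat.lt_floor_add_one (a * q)
  set r := ⌊a * q⌋₊ with hr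
  have hrq : r < q := by
    rw [hr, Nat.floor_lt h0]
    nlinarith [Int.fract_lt_one y]
  have hne' : (r : ℝ) ≠ a * q := by
    intro he
    refine hy ((r : ℤ) + ⌊y⌋ * q) ?_
    push_cast
    rw [he, ha, Int.fract]
    ring
  have h4 : (r : ℝ) < a * q := lt_of_le_of_ne h2 hne'
  have e : ((q - 1 - r : ℕ) : ℝ) = (q : ℝ) - 1 - r := by
    rw [Nat.cast_sub (by omega), Nat.cast_sub (by omega)]; simp
  rw [Nat.floor_eq_iff (by nlinarith [Int.fract_lt_one y]), e]
  constructor <;> linarith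

lemma ae_off_grid (q : ℕ) (hq : 0 < q) : ∀ᵐ y : ℝ, ∀ z : ℤ, y * q ≠ z := by
  rw [ae_all_iff]
  intro z
  have hqR : (q : ℝ) ≠ 0 := by exact_mod_cast hq.ne'
  have : (fun y : ℝ => y * q ≠ z) = fun y => y ≠ (z : ℝ) / q := by
    funext y
    rw [ne_eq, ne_eq, eq_div_iff hqR]
  simp only [this]
  exact Measure.ae_ne volume _

/-- If at almost every point at most one main term is nonzero, their integrals add up. -/
lemma sum_lower {Z : Type*} [Fintype Z] (Tm Mn : Z → ℝ → ℂ) (A E : Z → ℝ)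
    (hT : ∀ z, BddMeas (Tm z)) (hM : ∀ z, BddMeas (Mn z))
    (hd : ∀ᵐ x : ℝ, ∀ z z', z ≠ z' → Mn z x = 0 ∨ Mn z' x = 0)
    (hA : ∀ z, A z ≤ ∫ x in (0 : ℝ)..1, ‖Mn z x‖)
    (hE : ∀ z, ∫ x in (0 : ℝ)..1, ‖Tm z x - Mn z x‖ ≤ E z) :
    ∑ z, A z - ∑ z, E z ≤ ∫ x in (0 : ℝ)..1, ‖∑ z, Tm z x‖ := by
  classical
  have h1 : ∀ᵐ x : ℝ, ‖∑ z, Mn z x‖ = ∑ z, ‖Mn z x‖ := by
    filter_upwards [hd] with x hx
    rcases em (∃ z0, Mn z0 x ≠ 0) with ⟨z0, hz0⟩ | h
    · have h2 : ∀ z, z ≠ z0 → Mn z x = 0 := fun z hz =>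
        (hx z z0 hz).resolve_right hz0
      rw [Fintype.sum_eq_single z0 h2, Fintype.sum_eq_single z0 fun z hz => by rw [h2 z hz, norm_zero]]
    · push Not at h
      simp [h]
  have hle : ∀ᵐ x : ℝ, (∑ z, ‖Mn z x‖) - (∑ z, ‖Tm z x - Mn z x‖) ≤ ‖∑ z, Tm z x‖ := by
    filter_upwards [h1] with x hx
    rw [← hx]
    have h2 := norm_sum_le univ (fun z => Tm z x - Mn z x)
    have h3 := norm_le_norm_add_norm_sub' (∑ z, Mn z x) (∑ z, Tm z x)
    rw [← norm_neg (∑ z, Mn z x - ∑ z, Tm z x), neg_sub, ← Finset.sum_sub_distrib] at h3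
    linarith
  have hMi : ∀ z, IntervalIntegrable (fun x => ‖Mn z x‖) volume 0 1 := fun z => (hM z).norm.ii 0 1
  have hDi : ∀ z, IntervalIntegrable (fun x => ‖Tm z x - Mn z x‖) volume 0 1 :=
    fun z => ((hT z).sub (hM z)).norm.ii 0 1
  have hS1 : IntervalIntegrable (fun x => ∑ z, ‖Mn z x‖) volume 0 1 := by
    simpa [Finset.sum_fn] using IntervalIntegrable.sum univ fun z _ => hMi z
  have hS2 : IntervalIntegrable (fun x => ∑ z, ‖Tm z x - Mn z x‖) volume 0 1 := by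
    simpa [Finset.sum_fn] using IntervalIntegrable.sum univ fun z _ => hDi z
  refine le_trans ?_ (intervalIntegral.integral_mono_ae zero_le_one (hS1.sub hS2)
    ((BddMeas.sum univ Tm fun z _ => hT z).norm.ii 0 1) hle)
  rw [intervalIntegral.integral_sub hS1 hS2, intervalIntegral.integral_finsetSum fun z _ => hMi z,
    intervalIntegral.integral_finsetSum fun z _ => hDi z]
  exact sub_le_sub (sum_le_sum fun z _ => hA z) (sum_le_sum fun z _ => hE z)

end Vale.Agent.P130.Rank.FlatGraph
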