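import Vale.Agent.P130.Rank.FlatGraph.Defs
import Vale.Agent.P110.Exist.Layout.Cells

/-!
The labelled cells of the pieces, from the tiling, the moduli and the exponential sum.
-/

open Real Finset
open Vale.Agent.P110.Exist (e dot gauss)
open Vale.Agent.P110.Exist.Layout (cls card_cls mem_cls dot_smul sum_theta)

namespace Vale.Agent.P130.Rank.FlatGraph

/-- Mirroring modulo a multiple of `h` is mirroring modulo `h`. -/
lemma mirror_mod {h q0 r : ℕ} (hh : 0 < h) (hr : r < h * q0) :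
    (h * q0 - 1 - r) % h = h - 1 - r % h := by
  obtain ⟨k, hk⟩ : ∃ k, q0 = r / h + 1 + k :=
    Nat.exists_eq_add_of_le (Nat.div_lt_of_lt_mul hr)
  have e0 := Nat.mod_add_div r h
  have e1 := Nat.mod_lt r hh
  have e2 : h * q0 = h * (r / h) + h + h * k := by rw [hk]; ring
  rw [show h * q0 - 1 - r = (h - 1 - r % h) + h * k by omega, Nat.add_mul_mod_self_left,
    Nat.mod_eq_of_lt (by omega)]

/-- The cells. -/
theorem cells (hT : LabelTilingSpec) (hA : Vale.Agent.P110.Exist.ArithSpec)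
    (hG : Vale.Agent.P110.Exist.GaussSpec) : CellsSpec := by
  intro D S v hD hSne hprim hneg hv W0 Λ hΛ δ hδ hδ1 Nb0
  classical
  obtain ⟨h, χ, A, cN, hh, hmir, hlab, hdis, hcpos, hcinj, hM⟩ :=
    hT D S v hD hSne hprim hneg hv W0 Λ hΛ δ hδ
  -- the multiple `K` makes the number of blocks large
  obtain ⟨K, hK⟩ : ∃ K, K = Nb0 + 1 := ⟨_, rfl⟩
  obtain ⟨M, a, hM1, hQh, hQQ, hQa, hQco, hβ⟩ := hA D S hprim hneg h hh (fun n => cN n * K)
    (fun n hn => Nat.mul_pos (hcpos n hn) (by omega))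
    (fun n hn n' hn' he => hcinj hn hn' (Nat.eq_of_mul_eq_mul_right (by omega) he))
  obtain ⟨Nb, b, r, hMNb, hbr, hinj, happ⟩ :=
    hM (K * M) (Nat.one_le_iff_ne_zero.2 (Nat.mul_ne_zero (by omega) (by omega)))
  obtain ⟨Q, hQdef⟩ : ∃ Q : (Fin D → ℤ) → ℕ, ∀ n, Q n = cN n * K * M + 1 := ⟨_, fun _ => rfl⟩
  have hKM : ∀ n, cN n * (K * M) + 1 = Q n := fun n => by rw [hQdef, mul_assoc]
  simp only [hKM] at hbr happ
  simp only [← hQdef] at hQh hQQ hQa hQco hβ
  have hNb0 : Nb0 + 1 ≤ Nb :=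
    le_trans (le_of_eq_of_le hK.symm (Nat.le_mul_of_pos_right K (by omega))) hMNb
  have hQpos : ∀ n, 0 < Q n := fun n => by rw [hQdef]; omega
  obtain ⟨q0, hq0⟩ : ∃ q0, q0 = ∏ n ∈ S, Q n := ⟨_, rfl⟩
  have hq0pos : 0 < q0 := hq0 ▸ prod_pos fun n _ => hQpos n
  have hQdvd : ∀ n ∈ S, Q n ∣ q0 := fun n hn => hq0 ▸ dvd_prod_of_mem Q hn
  have hq02 : 2 ≤ q0 := by
    obtain ⟨n, hn⟩ := hSne
    refine le_trans ?_ (Nat.le_of_dvd hq0pos (hQdvd n hn))
    rw [hQdef]
    have := Nat.one_le_iff_ne_zero.2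
      (Nat.mul_ne_zero (Nat.mul_ne_zero (hcpos n hn).ne' (show K ≠ 0 by omega))
        (show M ≠ 0 by omega))
    omega
  have hco : Nat.Coprime h q0 := hq0 ▸ Nat.Coprime.prod_right fun n hn => (hQh n hn).1.symm
  obtain ⟨x, y, hxy⟩ : ∃ x y : ℤ, 1 = (h : ℤ) * x + (q0 : ℤ) * y := by
    have h0 := Nat.gcd_eq_gcd_ab h q0
    rw [hco.gcd_eq_one, Nat.cast_one] at h0
    exact ⟨_, _, h0⟩
  choose β hβ' using fun i => hβ (fun n => x * (r i n : ℤ))
  obtain ⟨T, hTdef⟩ : ∃ T : Fin Nb → (Fin D → ℤ) → ℤ, ∀ i n, T i n =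
      (h : ℤ) * dot n (β i) + (q0 : ℤ) * (y * dot n (b i)) := ⟨_, fun _ _ => rfl⟩
  obtain ⟨q, hq⟩ : ∃ q, q = h * q0 := ⟨_, rfl⟩
  have hdpos : ∀ n, 0 < h * Q n := fun n => Nat.mul_pos hh (hQpos n)
  have hmemU : ∀ i, ∀ n ∈ S, ∀ u, u ∈ cls (h * Q n) (q0 / Q n) (T i n) ↔
      u < q ∧ (u : ℤ) ≡ T i n [ZMOD ((h * Q n : ℕ) : ℤ)] := by
    intro i n hn u
    rw [mem_cls (hdpos n), mul_left_comm, Nat.div_mul_cancel (hQdvd n hn), ← hq]
  have hG' : ∀ i, ∀ n ∈ S, _ := fun i n hn => hG h q0 (Q n) (dot n a) (dot n (β i))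
    (y * dot n (b i)) hh hq0pos (hQdvd n hn) (hQa n hn) (by
      obtain ⟨A', hA'⟩ := hQa n hn
      have hdiv : dot n a / (Q n : ℤ) = A' := by
        rw [hA', Int.mul_ediv_cancel_left _ (by exact_mod_cast (hQpos n).ne')]
      have hrest : q0 / Q n = ∏ n' ∈ S.erase n, Q n' := by
        rw [hq0, ← mul_prod_erase _ _ hn, Nat.mul_div_cancel_left _ (hQpos n)]
      rw [hdiv, hrest, Nat.cast_prod]
      refine IsCoprime.prod_right fun n' hn' => ?_
      obtain ⟨hne, hn'S⟩ := mem_erase.1 hn'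
      refine IsCoprime.mul_left ?_ ?_
      · exact Nat.isCoprime_iff_coprime.2 (Nat.coprime_two_left.2 (hQh n' hn'S).2)
      · have := hQco n' hn'S n hn hne
        rw [hA'] at this
        exact this.of_mul_left_right)
  -- residues of a cell
  have hres : ∀ i, ∀ n ∈ S, ∀ u ∈ cls (h * Q n) (q0 / Q n) (T i n),
      u % h = (dot n (b i) % (h : ℤ)).toNat ∧ u % Q n = r i n := by
    intro i n hn u hu
    have hm := ((hmemU i n hn u).1 hu).2
    rw [Nat.cast_mul] at hm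
    constructor
    · have h1 : (u : ℤ) ≡ dot n (b i) [ZMOD (h : ℤ)] := by
        refine (Int.ModEq.of_mul_right _ hm).trans ?_
        refine (Int.modEq_iff_dvd.2 ⟨-dot n (β i) + x * dot n (b i), ?_⟩)
        rw [hTdef]
        linear_combination (dot n (b i)) * hxy
      rw [← h1]
      norm_cast
    · obtain ⟨w, hw⟩ : (Q n : ℤ) ∣ q0 := Int.natCast_dvd_natCast.2 (hQdvd n hn)
      have h1 : (u : ℤ) ≡ (r i n : ℤ) [ZMOD (Q n : ℤ)] := by
        refine (Int.ModEq.of_mul_left _ hm).trans ?_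
        obtain ⟨z, hz⟩ := Int.modEq_iff_dvd.1 (hβ' i n hn)
        refine (Int.modEq_iff_dvd.2 ⟨(h : ℤ) * z + w * y * (r i n) -
          w * (y * dot n (b i)), ?_⟩)
        rw [hTdef]
        linear_combination (r i n : ℤ) * hxy + (h : ℤ) * hz +
          ((y : ℤ) * (r i n) - y * dot n (b i)) * hw
      rw [Int.natCast_modEq_iff.1 h1, Nat.mod_eq_of_lt (hbr i n hn).2]
  have hinside : ∀ i, ∀ n ∈ S, ∀ u ∈ cls (h * Q n) (q0 / Q n) (T i n),
      ∀ l < (dot n v).toNat, u % h + l < h ∧ u + l < q := by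
    intro i n hn u hu l hl
    have hA1 := (hlab n hn _ (hbr i n hn).1 l hl).1
    rw [← (hres i n hn u hu).1] at hA1
    refine ⟨hA1, ?_⟩
    have hlt := ((hmemU i n hn u).1 hu).1
    rw [hq] at hlt ⊢
    have h1 : u / h + 1 ≤ q0 := Nat.div_lt_of_lt_mul hlt
    nlinarith [Nat.mod_add_div u h, Nat.mul_le_mul_left h h1]
  refine ⟨Nb, q, fun u => χ (u % h), fun i n => cls (h * Q n) (q0 / Q n) (T i n),
    fun i n u => gauss h q0 (dot n a) (dot n (β i)) (y * dot n (b i)) u,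
    fun i s j => ((a j : ℝ) * (s : ℝ) ^ 2 + (β i j : ℝ) * s) / q0 +
      ((y * b i j : ℤ) : ℝ) * s / (h : ℝ),
    by omega, by omega, by rw [hq]; positivity, ?_, ?_, ?_, ?_, ?_, ?_⟩
  · -- a piece is shorter than the period
    intro n hn
    have hm : 0 < (dot n v).toNat := by have := hv n hn; omega
    have := (hlab n hn _ (hbr ⟨0, by omega⟩ n hn).1 _ (Nat.sub_lt hm one_pos)).1
    rw [hq]
    have := Nat.mul_le_mul_left h hq02
    omega
  · -- mirrored labels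
    intro u hu
    dsimp only
    rw [hq] at hu ⊢
    rw [mirror_mod hh hu, hmir _ (Nat.mod_lt u hh)]
  · -- labels
    intro i n hn u hu l hl
    obtain ⟨hs, hlt⟩ := hinside i n hn u hu l hl
    refine ⟨hlt, ?_⟩
    have h1 := (hlab n hn _ (hbr i n hn).1 l hl).2
    rw [← (hres i n hn u hu).1] at h1
    dsimp only
    rwa [← Nat.mod_add_mod, Nat.mod_eq_of_lt hs]
  · -- disjointness
    intro i i' n hn u hu u' hu' l hl l' hl' heq
    obtain ⟨hs, hr⟩ := hres i n hn u hu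
    obtain ⟨hs', hr'⟩ := hres i' n hn u' hu'
    have hb1 := (hinside i n hn u hu l hl).1
    have hb2 := (hinside i' n hn u' hu' l' hl').1
    have h3 : u % h + l = u' % h + l' := by
      rw [← Nat.mod_eq_of_lt hb1, ← Nat.mod_eq_of_lt hb2, Nat.mod_add_mod, Nat.mod_add_mod, heq]
    have key := hdis n hn _ (hbr i n hn).1 _ (hbr i' n hn).1 l hl l' hl'
    rw [← hs, ← hs'] at key
    have hseq := key h3
    have huu : u = u' := by omega
    subst huu
    refine ⟨hinj i i' n hn ?_ (hr.symm.trans hr'), rfl⟩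
    have hh' : (0 : ℤ) < (h : ℤ) := by exact_mod_cast hh
    have e1 := Int.toNat_of_nonneg (Int.emod_nonneg (dot n (b i)) hh'.ne')
    have e2 := Int.toNat_of_nonneg (Int.emod_nonneg (dot n (b i')) hh'.ne')
    rw [← hs] at e1
    rw [← hs'] at e2
    exact e1.symm.trans e2
  · -- inversion
    intro i n hn s
    rw [show rdot n (fun j => ((a j : ℝ) * (s : ℝ) ^ 2 + (β i j : ℝ) * s) / q0 +
      ((y * b i j : ℤ) : ℝ) * s / (h : ℝ)) = _ from sum_theta n a (β i) (fun j => y * b i j) _ _ _,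
      dot_smul]
    have h2 := (hG' i n hn).2 (s : ℤ)
    simp only [Int.cast_natCast] at h2
    rw [← h2, hq]
    refine sum_subset ?_ ?_
    · intro u hu
      have := ((hmemU i n hn u).1 hu).1
      rw [hq] at this
      exact mem_range.2 this
    · intro u hu hu'
      have h0 : ‖gauss h q0 (dot n a) (dot n (β i)) (y * dot n (b i)) u‖ ^ 2 = 0 := by
        rw [(hG' i n hn).1 u, if_neg]
        intro hh'
        refine hu' ((hmemU i n hn u).2 ⟨by rw [hq]; exact mem_range.1 hu, ?_⟩)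
        rwa [hTdef]
      have := norm_eq_zero.1 (pow_eq_zero_iff two_ne_zero |>.1 h0)
      simp only [this, zero_mul]
  · -- weights
    intro n hn
    have h1 := (abs_le.1 (happ n hn)).1
    have hq0R : (0 : ℝ) < q0 := by exact_mod_cast hq0pos
    have hQR : (0 : ℝ) < Q n := by exact_mod_cast hQpos n
    have hhR : (0 : ℝ) < h := by exact_mod_cast hh
    have hNbR : (0 : ℝ) < Nb := by exact_mod_cast (show 0 < Nb by omega)
    set p : ℝ := ((Λ n).card : ℝ) / (2 * W0 : ℕ) with hp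
    have hp0 : 0 ≤ p := by positivity
    have hnorm : ∀ i, ∀ u ∈ cls (h * Q n) (q0 / Q n) (T i n),
        ‖gauss h q0 (dot n a) (dot n (β i)) (y * dot n (b i)) u‖ = √((Q n : ℝ) / q0) := by
      intro i u hu
      have h0 := ((hmemU i n hn u).1 hu).2
      rw [← Real.sqrt_sq (norm_nonneg (gauss h q0 _ _ _ _)), (hG' i n hn).1 u, if_pos]
      rwa [hTdef] at h0
    have hsum : (∑ i : Fin Nb, ∑ u ∈ cls (h * Q n) (q0 / Q n) (T i n),
        ‖gauss h q0 (dot n a) (dot n (β i)) (y * dot n (b i)) u‖) =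
        (Nb : ℝ) * ((q0 : ℝ) / Q n) * √((Q n : ℝ) / q0) := by
      rw [sum_congr rfl fun i _ => sum_congr rfl (hnorm i)]
      simp only [sum_const, card_cls (hdpos n), card_univ, Fintype.card_fin, nsmul_eq_mul,
        Nat.cast_div (hQdvd n hn) hQR.ne', mul_assoc]
    dsimp only
    rw [hsum]
    have hsq : ((Nb : ℝ) * ((q0 : ℝ) / Q n) * √((Q n : ℝ) / q0)) *
        √(((dot n v).toNat : ℝ) / ((q : ℝ) * Nb)) =
        √((Nb : ℝ) * (dot n v).toNat / ((h : ℝ) * Q n)) := by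
      rw [← Real.sqrt_sq (by positivity : (0 : ℝ) ≤ (Nb : ℝ) * ((q0 : ℝ) / Q n)),
        ← Real.sqrt_mul (sq_nonneg _), ← Real.sqrt_mul (by positivity), hq, Nat.cast_mul]
      congr 1
      field_simp
    rw [hsq]
    calc (1 - δ) * √p = √((1 - δ) ^ 2 * p) := by
          rw [Real.sqrt_mul (sq_nonneg _), Real.sqrt_sq (by linarith)]
      _ ≤ _ := Real.sqrt_le_sqrt (by
          nlinarith [mul_le_mul_of_nonneg_right (show (1 - δ) ^ 2 ≤ 1 - δ by nlinarith) hp0])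

end Vale.Agent.P130.Rank.FlatGraph
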