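import Vale.Agent.P130.Rank.Spec

/-!
Interface between the arithmetic of the pieces and the estimate of the exponential sum of a graph.
-/

open Real Finset
open Vale.Agent.P110.Exist (e dot)

namespace Vale.Agent.P130.Rank.FlatGraph

/-- The labelled cells: `u ∈ U i n` starts a piece of `n` in block `i` on `n·v` cells mod `q`,
whose labels lie in `Λ n`; mirrored cells carry mirrored labels, so a piece of `-n` on the cells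
`q - 1 - (u + l)` carries labels in the mirror of `Λ n`. -/
def CellsSpec : Prop :=
  ∀ (D : ℕ) (S : Finset (Fin D → ℤ)) (v : Fin D → ℤ), 2 ≤ D → S.Nonempty →
    (∀ n ∈ S, ∃ y, dot n y = 1) → (∀ n ∈ S, -n ∉ S) → (∀ n ∈ S, 0 < dot n v) →
    ∀ (W0 : ℕ) (Λ : (Fin D → ℤ) → Finset (Fin (2 * W0))), (∀ n ∈ S, (Λ n).Nonempty) →
    ∀ δ : ℝ, 0 < δ → δ < 1 → ∀ Nb0 : ℕ,
    ∃ (Nb q : ℕ) (χ : ℕ → Fin (2 * W0)) (U : Fin Nb → (Fin D → ℤ) → Finset ℕ)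
      (G : Fin Nb → (Fin D → ℤ) → ℕ → ℂ) (θ : Fin Nb → ℕ → Fin D → ℝ),
      Nb0 ≤ Nb ∧ 0 < Nb ∧ 0 < q ∧ (∀ n ∈ S, (dot n v).toNat < q) ∧
      (∀ r < q, χ (q - 1 - r) = (χ r).rev) ∧
      (∀ i, ∀ n ∈ S, ∀ u ∈ U i n, ∀ l < (dot n v).toNat, u + l < q ∧ χ (u + l) ∈ Λ n) ∧
      (∀ i i', ∀ n ∈ S, ∀ u ∈ U i n, ∀ u' ∈ U i' n, ∀ l < (dot n v).toNat,
        ∀ l' < (dot n v).toNat, u + l = u' + l' → i = i' ∧ u = u') ∧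
      (∀ i, ∀ n ∈ S, ∀ s : ℕ, ∑ u ∈ U i n, G i n u * e ((u : ℝ) * (s : ℝ) / (q : ℝ)) =
        e (rdot n (θ i s))) ∧
      ∀ n ∈ S, (1 - δ) * √(((Λ n).card : ℝ) / (2 * W0 : ℕ)) ≤
        (∑ i, ∑ u ∈ U i n, ‖G i n u‖) * √(((dot n v).toNat : ℝ) / ((q : ℝ) * (Nb : ℝ)))

end Vale.Agent.P130.Rank.FlatGraph
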