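import Vale.Agent.P130.Rank.FlatGraph.Net

/-!
Flat graphs from a waveform, labels, labelled cells, random shifts and chirp bands.
-/

open Real Finset MeasureTheory
open Vale.Agent.P110.Exist (e dot e_add e_neg e_int e_add_int norm_e continuous_e)

namespace Vale.Agent.P130.Rank.FlatGraph

/-- The net in `[η, 1/2]`. -/
noncomputable def net (η : ℝ) (L : ℕ) (l : Fin (L + 1)) : ℝ := η + (1 / 2 - η) * (l : ℕ) / L

lemma net_facts {η : ℝ} (hη2 : η < 1 / 2) {L : ℕ} (hL : 0 < L) :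
    StrictMono (net η L) ∧ (∀ l, net η L l ∈ Set.Icc η (1 / 2)) ∧ net η L (Fin.last L) = 1 / 2 ∧
      ∀ t ∈ Set.Icc η (1 / 2), ∃ l, |net η L l - t| ≤ (1 / 2 - η) / L := by
  have hLR : (0 : ℝ) < L := by exact_mod_cast hL
  have hd : 0 < 1 / 2 - η := by linarith
  refine ⟨fun a b hab => ?_, fun l => ?_, ?_, fun t ht => ?_⟩
  · have : ((a : ℕ) : ℝ) < ((b : ℕ) : ℝ) := by exact_mod_cast hab
    simp only [net]
    gcongr
  · have h1 : ((l : ℕ) : ℝ) ≤ L := by exact_mod_cast Nat.lt_succ_iff.1 l.isLt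
    simp only [net, Set.mem_Icc]
    refine ⟨le_add_of_nonneg_right (by positivity), ?_⟩
    have : (1 / 2 - η) * (l : ℕ) / L ≤ 1 / 2 - η := by
      rw [div_le_iff₀ hLR]; exact mul_le_mul_of_nonneg_left h1 hd.le
    linarith
  · simp [net, hLR.ne']
  · set y := (t - η) / (1 / 2 - η) * L with hy
    have hy0 : 0 ≤ y := by have := ht.1; positivity
    have hyL : y ≤ L := mul_le_of_le_one_left hLR.le ((div_le_one hd).2 (by linarith [ht.2]))
    have hl : ⌊y⌋₊ < L + 1 := Nat.lt_succ_of_le (Nat.floor_le_of_le hyL)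
    refine ⟨⟨⌊y⌋₊, hl⟩, ?_⟩
    have h1 : |(⌊y⌋₊ : ℝ) - y| ≤ 1 := by
      rw [abs_le]
      constructor <;> linarith [Nat.floor_le hy0, Nat.lt_floor_add_one y]
    have e1 : net η L ⟨⌊y⌋₊, hl⟩ - t = (1 / 2 - η) / L * ((⌊y⌋₊ : ℝ) - y) := by
      have e2 : (1 / 2 - η) / L * y = t - η := by
        rw [hy, mul_comm ((t - η) / (1 / 2 - η)), ← mul_assoc, div_mul_cancel₀ _ hLR.ne',
          mul_div_cancel₀ _ hd.ne']
      rw [mul_sub, e2]; simp only [net]; ring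
    rw [e1, abs_mul, abs_of_pos (div_pos hd hLR)]
    exact mul_le_of_le_one_right (div_pos hd hLR).le h1

/-- Rounding the weights down to multiples of `1 / W`. -/
lemma weight_lower {ρ W ε δw : ℝ} (hρ : 0 < ρ) (hW : 0 < W) (hε : 0 < ε) (hε1 : ε < 1)
    (hδw : 0 ≤ δw) (hδε : δw ≤ ε) (hbig : (1 + δw) / (ε * ρ) ≤ W) :
    1 ≤ ⌊ρ * W / (1 + δw)⌋₊ ∧
      (1 - ε) * √ρ ≤ √((⌊ρ * W / (1 + δw)⌋₊ : ℝ) / W) := by
  set x := ρ * W / (1 + δw) with hx
  have h1 : 1 ≤ ε * x := by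
    rw [div_le_iff₀ (by positivity)] at hbig
    rw [hx, ← mul_div_assoc, le_div_iff₀ (by positivity)]
    linarith
  have hx0 : 0 < x := by positivity
  have h2 : x - 1 < (⌊x⌋₊ : ℝ) := by linarith [Nat.lt_floor_add_one x]
  refine ⟨Nat.le_floor (by push_cast; nlinarith), ?_⟩
  rw [Real.le_sqrt (mul_nonneg (by linarith) (Real.sqrt_nonneg _)) (by positivity), mul_pow,
    Real.sq_sqrt hρ.le, le_div_iff₀ hW]
  have h3 : (1 - ε) * (1 + δw) ≤ 1 := by nlinarith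
  have h5 : (1 - ε) * (ρ * W) ≤ x := by
    rw [hx, le_div_iff₀ (by positivity)]
    have := mul_le_mul_of_nonneg_left h3 (by positivity : (0 : ℝ) ≤ ρ * W)
    linarith
  have h6 := mul_le_mul_of_nonneg_left h5 (by linarith : (0 : ℝ) ≤ 1 - ε)
  nlinarith

/-- Flatness at one point of the net. -/
lemma level_bound {D Nb : ℕ} (act : Finset ((Fin D → ℤ) × Bool))
    (c : (Fin D → ℤ) × Bool → ℂ) (len : ℕ) (t : ℝ) (f : ℕ → ℕ)
    (X : Fin Nb → ℕ → Fin D → ℝ) (g : (Fin D → ℝ) → ℕ)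
    (hf : ∀ (i : Fin Nb), ∀ s < len, f ((i : ℕ) * len + s) = g (X i s)) (lo rem : ℝ)
    (hlo : lo ≤ ∫ x in (0 : ℝ)..1, ‖∑ p ∈ act, ∑ i : Fin Nb, ∑ s ∈ range len,
      c p * e (rdot (sgnVec p) (X i s)) * e (x * (((i : ℕ) * len + s : ℕ) : ℝ))‖)
    (hrem : ∑ i : Fin Nb, ∑ s : Fin len,
      ‖e (t * (g (X i s) : ℝ)) - ∑ p ∈ act, c p * e (rdot (sgnVec p) (X i s))‖ ^ 2 ≤ rem) :
    lo - √rem ≤ ∫ x in (0 : ℝ)..1, ‖graphSum (Nb * len) f t x‖ := by
  classical
  let a : ℕ → ℂ := fun j => if h : j / len < Nb then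
      e (t * (g (X ⟨j / len, h⟩ (j % len)) : ℝ)) -
        ∑ p ∈ act, c p * e (rdot (sgnVec p) (X ⟨j / len, h⟩ (j % len)))
    else 0
  let b : ℕ → ℂ := fun j => e (t * (f j : ℝ)) - a j
  have ha : ∀ (i : Fin Nb), ∀ s < len, a ((i : ℕ) * len + s) =
      e (t * (g (X i s) : ℝ)) - ∑ p ∈ act, c p * e (rdot (sgnVec p) (X i s)) := by
    intro i s hs
    have h1 : ((i : ℕ) * len + s) / len = i := by
      rw [Nat.add_comm, Nat.add_mul_div_right _ _ (by omega), Nat.div_eq_of_lt hs, Nat.zero_add]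
    have h2 : ((i : ℕ) * len + s) % len = s := by
      rw [Nat.add_comm, Nat.add_mul_mod_self_right, Nat.mod_eq_of_lt hs]
    have h3 : ((i : ℕ) * len + s) / len < Nb := by rw [h1]; exact i.isLt
    have h4 : (⟨((i : ℕ) * len + s) / len, h3⟩ : Fin Nb) = i := Fin.ext h1
    simp only [a, dif_pos h3, h4, h2]
  have hb : ∀ x : ℝ, ∑ j ∈ range (Nb * len), b j * e (x * j) = ∑ p ∈ act, ∑ i : Fin Nb,
      ∑ s ∈ range len, c p * e (rdot (sgnVec p) (X i s)) *
        e (x * (((i : ℕ) * len + s : ℕ) : ℝ)) := by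
    intro x
    rw [sum_range_mul_split, ← Fin.sum_univ_eq_sum_range, Finset.sum_comm (s := act)]
    refine sum_congr rfl fun i _ => ?_
    rw [Finset.sum_comm (s := act)]
    refine sum_congr rfl fun s hs => ?_
    simp only [b, ha i s (mem_range.1 hs), hf i s (mem_range.1 hs), sub_sub_cancel, Finset.sum_mul]
  have hpar : ∑ j ∈ range (Nb * len), ‖a j‖ ^ 2 ≤ rem := by
    refine le_trans (le_of_eq ?_) hrem
    rw [sum_range_mul_split, ← Fin.sum_univ_eq_sum_range]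
    refine sum_congr rfl fun i _ => ?_
    rw [← Fin.sum_univ_eq_sum_range]
    exact sum_congr rfl fun s _ => by rw [ha i s s.isLt]
  have hA : BddMeas fun x : ℝ => ∑ j ∈ range (Nb * len), a j * e (x * j) :=
    BddMeas.sum _ _ fun j _ => (BddMeas.const _).mul (phase_bddMeas j)
  have hB : BddMeas fun x : ℝ => ∑ j ∈ range (Nb * len), b j * e (x * j) :=
    BddMeas.sum _ _ fun j _ => (BddMeas.const _).mul (phase_bddMeas j)
  have h1 := integral_norm_le_sqrt hA (le_trans (le_of_eq (parseval _ a)) hpar)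
  simp only [← hb] at hlo
  have h2 : ∫ x in (0 : ℝ)..1, ‖∑ j ∈ range (Nb * len), b j * e (x * j)‖ ≤
      ∫ x in (0 : ℝ)..1,
        (‖graphSum (Nb * len) f t x‖ + ‖∑ j ∈ range (Nb * len), a j * e (x * j)‖) := by
    refine intervalIntegral.integral_mono_on zero_le_one (hB.norm.ii 0 1)
      (((graphSum_bddMeas _ f t).norm.ii 0 1).add (hA.norm.ii 0 1)) fun x _ => ?_
    have : ∑ j ∈ range (Nb * len), b j * e (x * j) =
        graphSum (Nb * len) f t x - ∑ j ∈ range (Nb * len), a j * e (x * j) := by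
      simp only [graphSum_eq, b, sub_mul, Finset.sum_sub_distrib]
    rw [this]
    exact norm_sub_le _ _
  rw [intervalIntegral.integral_add ((graphSum_bddMeas _ f t).norm.ii 0 1) (hA.norm.ii 0 1)] at h2
  linarith

/-- The error functions of the net. -/
lemma err_props {D : ℕ} (T : ℝ) (G : (Fin D → ℝ) → ℕ) (hG : Measurable G)
    (hper : ∀ θ (z : Fin D → ℤ), G (fun i => θ i + (z i : ℝ)) = G θ)
    (act : Finset ((Fin D → ℤ) × Bool)) (c : (Fin D → ℤ) × Bool → ℂ) :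
    Measurable (fun θ => e (T * (G θ : ℝ)) - ∑ p ∈ act, c p * e (rdot (sgnVec p) θ)) ∧
    (∀ θ, ‖e (T * (G θ : ℝ)) - ∑ p ∈ act, c p * e (rdot (sgnVec p) θ)‖ ≤
      1 + ∑ p ∈ act, ‖c p‖) ∧
    ∀ θ (z : Fin D → ℤ),
      e (T * (G (fun i => θ i + (z i : ℝ)) : ℝ)) -
          ∑ p ∈ act, c p * e (rdot (sgnVec p) (fun i => θ i + (z i : ℝ))) =
        e (T * (G θ : ℝ)) - ∑ p ∈ act, c p * e (rdot (sgnVec p) θ) := by
  refine ⟨?_, fun θ => ?_, fun θ z => ?_⟩
  · refine Measurable.sub ?_ (Finset.measurable_sum _ fun p _ => ?_)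
    · exact continuous_e.measurable.comp
        (((measurable_of_countable (fun k : ℕ => (k : ℝ))).comp hG).const_mul T)
    · refine (continuous_e.measurable.comp ?_).const_mul _
      exact Continuous.measurable (by unfold rdot; fun_prop)
  · refine (norm_sub_le _ _).trans (add_le_add (le_of_eq (norm_e _)) ?_)
    refine (norm_sum_le _ _).trans (sum_le_sum fun p _ => ?_)
    simp [norm_e]
  · rw [hper]
    congr 1
    refine sum_congr rfl fun p _ => ?_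
    rw [rdot_add, show rdot (sgnVec p) (fun i => (z i : ℝ)) = ((dot (sgnVec p) z : ℤ) : ℝ) by
      simp [rdot, dot], e_add_int]

/-- Flat graphs, given the cells. -/
theorem flatGraph_of_cells (hW : GraphWaveSpec) (hL : LabelSpec) (hC : CellsSpec) (hS : ShiftSpec)
    (hP : PieceSpec) : FlatGraphSpec := by
  intro δ η hδ hη
  classical
  set ε : ℝ := min δ 1 / 20 with hε
  have hε0 : 0 < ε := by positivity
  have hε1 : ε ≤ 1 / 20 := by rw [hε]; linarith [min_le_right δ 1]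
  have hεδ : 20 * ε ≤ δ := by rw [hε]; linarith [min_le_left δ 1]
  set η' : ℝ := min η (1 / 4) with hη'
  have hη'0 : 0 < η' := lt_min hη (by norm_num)
  have hη'2 : η' < 1 / 2 := lt_of_le_of_lt (min_le_right _ _) (by norm_num)
  obtain ⟨R, hR1, hwave⟩ := hW (ε ^ 2) η' (by positivity) hη'0 hη'2
  refine ⟨R, hR1, fun m0 => ?_⟩
  obtain ⟨L, hLdef⟩ : ∃ L, L = ⌈2 * π * R / ε⌉₊ + 1 := ⟨_, rfl⟩
  have hL0 : 0 < L := by omega
  obtain ⟨hmono, hrange, hlast, hnear⟩ := net_facts hη'2 hL0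
  obtain ⟨D, G, P, v, ρ, act, c, hD, hGm, hGR, hGper, -, hprim, hneg, hv, hρ, hactP, hord,
    hlastsym, hopp, hcρ, hsumρ, hint⟩ := hwave L (net η' L) hmono hrange hlast
  -- active harmonics and labels
  set S := P.filter fun n => ∃ l b, (n, b) ∈ act l with hSdef
  have hSP : ∀ n ∈ S, n ∈ P := fun n hn => (mem_filter.1 hn).1
  have hactS : ∀ l, ∀ p ∈ act l, p.1 ∈ S := fun l p hp =>
    mem_filter.2 ⟨hactP l p hp, l, p.2, hp⟩
  have hSne : S.Nonempty := by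
    have h := (hsumρ 0).1
    rcases (act 0).eq_empty_or_nonempty with h0 | ⟨p, hp⟩
    · rw [h0, Finset.sum_empty] at h; nlinarith
    · exact ⟨p.1, hactS 0 p hp⟩
  obtain ⟨W0, hW0def⟩ : ∃ W0, W0 = ⌈∑ n ∈ S, (1 + ε ^ 2) / (ε * ρ n)⌉₊ + 1 := ⟨_, rfl⟩
  have hWpos : (0 : ℝ) < ((2 * W0 : ℕ) : ℝ) := by exact_mod_cast (by omega : 0 < 2 * W0)
  have hWn : ∀ n ∈ S, (1 + ε ^ 2) / (ε * ρ n) ≤ ((2 * W0 : ℕ) : ℝ) := by
    intro n hn
    refine le_trans (Finset.single_le_sum (f := fun n => (1 + ε ^ 2) / (ε * ρ n)) (fun n hn => ?_) hn)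
      ((Nat.le_ceil _).trans ?_)
    · have := hρ n (hSP n hn); positivity
    · exact_mod_cast (by omega : ⌈∑ n ∈ S, (1 + ε ^ 2) / (ε * ρ n)⌉₊ ≤ 2 * W0)
  set k : (Fin D → ℤ) → ℕ := fun n =>
    if n ∈ S then ⌊ρ n * ((2 * W0 : ℕ) : ℝ) / (1 + ε ^ 2)⌋₊ else 0 with hk
  have hkle : ∀ n ∈ S, (k n : ℝ) ≤ ρ n * ((2 * W0 : ℕ) : ℝ) / (1 + ε ^ 2) := fun n hn => by
    simp only [hk, if_pos hn]
    have := hρ n (hSP n hn)
    exact Nat.floor_le (by positivity)
  have hksum : ∀ l, ∑ p ∈ act l, k p.1 ≤ 2 * W0 := by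
    intro l
    have h : ∑ p ∈ act l, (k p.1 : ℝ) ≤ ((2 * W0 : ℕ) : ℝ) := by
      refine (sum_le_sum fun p hp => hkle _ (hactS l p hp)).trans ?_
      rw [← Finset.sum_div, ← Finset.sum_mul, div_le_iff₀ (by positivity),
        mul_comm ((2 * W0 : ℕ) : ℝ)]
      exact mul_le_mul_of_nonneg_right (hsumρ l).2 hWpos.le
    exact_mod_cast h
  have hkone : ∀ n, k n ≤ 2 * W0 := by
    intro n
    by_cases hn : n ∈ S
    · obtain ⟨-, l, b, hb⟩ := mem_filter.1 hn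
      exact (Finset.single_le_sum (f := fun p : (Fin D → ℤ) × Bool => k p.1)
        (fun _ _ => Nat.zero_le _) hb).trans (hksum l)
    · simp [hk, hn]
  obtain ⟨Λ, hΛcard, hΛdisj⟩ :=
    hL (Fin D → ℤ) L W0 act k hord hlastsym hopp hksum hkone
  have hwl : ∀ n ∈ S, 1 ≤ k n ∧ (1 - ε) * √(ρ n) ≤ √((k n : ℝ) / ((2 * W0 : ℕ) : ℝ)) := by
    intro n hn
    simp only [hk, if_pos hn]
    exact weight_lower (hρ n (hSP n hn)) hWpos hε0 (by linarith) (sq_nonneg ε) (by nlinarith)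
      (hWn n hn)
  have hΛne : ∀ n ∈ S, (Λ n).Nonempty := fun n hn =>
    card_pos.1 (by rw [hΛcard]; exact (hwl n hn).1)
  -- blocks
  obtain ⟨B, hBdef⟩ : ∃ B : ℝ, B = 1 + ∑ l, ∑ p ∈ act l, ‖c l p‖ := ⟨_, rfl⟩
  obtain ⟨N0, hshift⟩ := hS D (L + 1) B (ε ^ 2) (by positivity) (by rw [hBdef]; positivity)
  obtain ⟨Nb, q, χ, U, Gc, θ, hNbge, hNb, hq, hmq, hχ, hU, hinj, hinv, hweight⟩ :=
    hC D S v hD hSne (fun n hn => hprim n (hSP n hn))
      (fun n hn h => hneg n (hSP n hn) (hSP _ h)) (fun n hn => hv n (hSP n hn)) W0 Λ hΛne ε hε0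
      (by linarith) N0
  obtain ⟨Cp, hCp⟩ : ∃ Cp : ℝ, Cp = ∑ l, ∑ p ∈ act l, ‖c l p‖ *
      ((∑ i, ∑ u ∈ U i p.1, ‖Gc i p.1 u‖) / √(((dot p.1 v).toNat : ℝ) * Nb / q)) := ⟨_, rfl⟩
  have hCp0 : 0 ≤ Cp := by rw [hCp]; positivity
  have hqR : (0 : ℝ) < q := by exact_mod_cast hq
  have hNbR : (0 : ℝ) < Nb := by exact_mod_cast hNb
  have hm : ∀ n ∈ S, (0 : ℝ) < ((dot n v).toNat : ℝ) := fun n hn => by
    have := hv n (hSP n hn); exact_mod_cast (by omega : 0 < (dot n v).toNat)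
  choose Np hNp using fun n : ↥S => hP (((dot n.1 v).toNat : ℝ) * Nb / q) (1 / (Nb : ℝ))
    ((ε / (1 + Cp)) ^ 2) (by have := hm n.1 n.2; positivity) (by positivity)
    (by
      rw [show ((dot n.1 v).toNat : ℝ) * Nb / q * (1 / (Nb : ℝ)) = ((dot n.1 v).toNat : ℝ) / q by
        field_simp, div_lt_one hqR]
      exact_mod_cast hmq n.1 n.2)
    (by positivity)
  obtain ⟨len, hlen⟩ : ∃ len, len = m0 + (∑ n, Np n) + 1 := ⟨_, rfl⟩
  obtain ⟨N, hN⟩ : ∃ N, N = Nb * len := ⟨_, rfl⟩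
  have hNlen : len ≤ N := by rw [hN]; exact Nat.le_mul_of_pos_left _ hNb
  choose Φ hΦm hΦn hΦe using fun n : ↥S => hNp n N (le_trans
    (le_trans (Finset.single_le_sum (fun a _ => Nat.zero_le (Np a)) (mem_univ n)) (by omega)) hNlen)
  have hfl : ⌊1 / (Nb : ℝ) * (N : ℝ)⌋₊ = len := by
    rw [hN, Nat.cast_mul, show 1 / (Nb : ℝ) * ((Nb : ℝ) * (len : ℝ)) = (len : ℝ) by field_simp,
      Nat.floor_natCast]
  set Φ' : (Fin D → ℤ) → ℝ → ℂ := fun n => if h : n ∈ S then Φ ⟨n, h⟩ else fun _ => 0 with hΦ'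
  have hband : ∀ n ∈ S, Band (((dot n v).toNat : ℝ) * Nb / q) N len (((dot n v).toNat : ℝ) / q)
      ((ε / (1 + Cp)) ^ 2 * N) (Φ' n) := by
    intro n hn
    simp only [hΦ', dif_pos hn]
    refine ⟨hΦm _, fun τ hτ => ?_, ?_⟩
    · rw [hΦn ⟨n, hn⟩ τ hτ, show ((dot n v).toNat : ℝ) * Nb / q * (1 / (Nb : ℝ)) =
        ((dot n v).toNat : ℝ) / q by field_simp]
    · have h := hΦe ⟨n, hn⟩
      rw [hfl] at h
      exact h
  obtain ⟨φ, hφ⟩ := hshift Nb hNbge len (fun i s => point q N v θ i s)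
    (fun l θ => e (net η' L l * (G θ : ℝ)) - ∑ p ∈ act l, c l p * e (rdot (sgnVec p) θ))
    (fun l => (err_props _ G hGm hGper _ _).1)
    (fun l θ => ((err_props (net η' L l) G hGm hGper (act l) (c l)).2.1 θ).trans (by
      rw [hBdef]
      exact add_le_add le_rfl (Finset.single_le_sum (f := fun l => ∑ p ∈ act l, ‖c l p‖)
        (fun _ _ => by positivity) (mem_univ l))))
    (fun l => (err_props _ G hGm hGper _ _).2.2)
  -- the graph
  let f : ℕ → ℕ := fun j => if h : j / len < Nb then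
    G (fun k => point q N v θ ⟨j / len, h⟩ (j % len) k + φ ⟨j / len, h⟩ k) else 0
  have hfR : ∀ j, f j < R := fun j => by
    simp only [f]; split_ifs
    · exact hGR _
    · omega
  have hf : ∀ (i : Fin Nb), ∀ s < len,
      f ((i : ℕ) * len + s) = G (fun k => point q N v θ i s k + φ i k) := by
    intro i s hs
    have h1 : ((i : ℕ) * len + s) / len = i := by
      rw [Nat.add_comm, Nat.add_mul_div_right _ _ (by omega), Nat.div_eq_of_lt hs, Nat.zero_add]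
    have h2 : ((i : ℕ) * len + s) % len = s := by
      rw [Nat.add_comm, Nat.add_mul_mod_self_right, Nat.mod_eq_of_lt hs]
    have h3 : ((i : ℕ) * len + s) / len < Nb := by rw [h1]; exact i.isLt
    have h4 : (⟨((i : ℕ) * len + s) / len, h3⟩ : Fin Nb) = i := Fin.ext h1
    simp only [f, dif_pos h3, h4, h2]
  refine ⟨N, by omega, f, hfR, ?_⟩
  have hnet : ∀ l, (1 - 8 * ε) * √N ≤ ∫ x in (0 : ℝ)..1, ‖graphSum N f (net η' L l) x‖ := by
    intro l
    have hlev := level_lower S v (fun n hn => hv n (hSP n hn)) Λ (act l) (hactS l) (hΛdisj l) q hq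
      hmq hNb χ hχ U hU hinj Gc θ hinv N len ((ε / (1 + Cp)) ^ 2 * N) Φ' hband (c l) φ
    have hbound := level_bound (act l) (c l) len (net η' L l) f
      (fun i s k => point q N v θ i s k + φ i k) G hf _ _ hlev (hφ l)
    rw [← hN] at hbound
    have hrem : √((Nb : ℝ) * len * ((∫ θ in cube D, ‖e (net η' L l * (G θ : ℝ)) -
        ∑ p ∈ act l, c l p * e (rdot (sgnVec p) θ)‖ ^ 2) + ε ^ 2)) ≤ √N * (2 * ε) := by
      rw [Real.sqrt_le_iff]
      refine ⟨by positivity, ?_⟩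
      rw [mul_pow, Real.sq_sqrt (by positivity), hN, Nat.cast_mul]
      refine mul_le_mul_of_nonneg_left ?_ (by positivity)
      nlinarith [hint l]
    have hB2 : √((ε / (1 + Cp)) ^ 2 * N) * (∑ p ∈ act l, ‖c l p‖ *
        ((∑ i, ∑ u ∈ U i p.1, ‖Gc i p.1 u‖) / √(((dot p.1 v).toNat : ℝ) * Nb / q))) ≤ √N * ε := by
      rw [Real.sqrt_mul (sq_nonneg _), Real.sqrt_sq (by positivity), mul_comm (ε / (1 + Cp)) (√N),
        mul_assoc]
      refine mul_le_mul_of_nonneg_left ?_ (Real.sqrt_nonneg _)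
      have h1 : ∑ p ∈ act l, ‖c l p‖ *
          ((∑ i, ∑ u ∈ U i p.1, ‖Gc i p.1 u‖) / √(((dot p.1 v).toNat : ℝ) * Nb / q)) ≤ 1 + Cp := by
        have := Finset.single_le_sum (f := fun l => ∑ p ∈ act l, ‖c l p‖ *
          ((∑ i, ∑ u ∈ U i p.1, ‖Gc i p.1 u‖) / √(((dot p.1 v).toNat : ℝ) * Nb / q)))
          (fun _ _ => by positivity) (mem_univ l)
        rw [hCp]; linarith
      refine (mul_le_mul_of_nonneg_left h1 (by positivity)).trans_eq ?_
      field_simp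
    have hmain : (1 - 4 * ε) * √N ≤ √N * ∑ p ∈ act l, ‖c l p‖ *
        ((∑ i, ∑ u ∈ U i p.1, ‖Gc i p.1 u‖) *
          √(((dot p.1 v).toNat : ℝ) / ((q : ℝ) * (Nb : ℝ)))) := by
      rw [mul_comm _ (√N)]
      refine mul_le_mul_of_nonneg_left ?_ (Real.sqrt_nonneg _)
      have h1 : ∀ p ∈ act l, (1 - ε) * ((1 - ε) * ρ p.1) ≤ ‖c l p‖ *
          ((∑ i, ∑ u ∈ U i p.1, ‖Gc i p.1 u‖) *
            √(((dot p.1 v).toNat : ℝ) / ((q : ℝ) * (Nb : ℝ)))) := by
        intro p hp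
        have hn := hactS l p hp
        have hρp := hρ _ (hSP _ hn)
        have hc : ‖c l p‖ = √(ρ p.1) := by rw [← hcρ l p hp, Real.sqrt_sq (norm_nonneg _)]
        have h2 := hweight p.1 hn
        rw [hΛcard] at h2
        have h3 := mul_le_mul_of_nonneg_left (hwl p.1 hn).2 (by linarith : (0 : ℝ) ≤ 1 - ε)
        rw [hc]
        refine le_trans (le_of_eq ?_) (mul_le_mul_of_nonneg_left (h3.trans h2) (Real.sqrt_nonneg _))
        calc (1 - ε) * ((1 - ε) * ρ p.1) = (1 - ε) * (1 - ε) * (√(ρ p.1) * √(ρ p.1)) := by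
              rw [Real.mul_self_sqrt hρp.le]; ring
          _ = _ := by ring
      refine le_trans ?_ (sum_le_sum h1)
      rw [← Finset.mul_sum, ← Finset.mul_sum, ← mul_assoc]
      have h4 := mul_le_mul_of_nonneg_left (hsumρ l).1 (by nlinarith : (0 : ℝ) ≤ (1 - ε) * (1 - ε))
      refine le_trans ?_ h4
      have h5 : ε ^ 4 ≤ ε := pow_le_of_le_one hε0.le (by linarith) four_ne_zero
      have h6 : 0 ≤ ε ^ 3 := by positivity
      nlinarith only [h5, h6, hε0]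
    have hεN : 0 ≤ ε * √N := by positivity
    linarith
  intro t ht
  have key : ∀ t ∈ Set.Icc η' (1 / 2), (1 - δ) * √N ≤ ∫ x in (0 : ℝ)..1, ‖graphSum N f t x‖ := by
    intro t ht
    obtain ⟨l, hl⟩ := hnear t ht
    have h1 := graphSum_lipschitz N R f hfR t (net η' L l)
    have h2 : 2 * π * R * |net η' L l - t| * √N ≤ ε * √N := by
      refine mul_le_mul_of_nonneg_right ?_ (Real.sqrt_nonneg _)
      have hLR : (0 : ℝ) < L := by exact_mod_cast hL0
      have hLb : 2 * π * R ≤ ε * L := by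
        have h : 2 * π * R / ε ≤ L := (Nat.le_ceil _).trans
          (by exact_mod_cast (by omega : ⌈2 * π * R / ε⌉₊ ≤ L))
        rw [div_le_iff₀ hε0] at h
        linarith
      calc 2 * π * R * |net η' L l - t| ≤ ε * L * ((1 / 2 - η') / L) :=
            mul_le_mul hLb hl (abs_nonneg _) (by positivity)
        _ = ε * (1 / 2 - η') := by field_simp
        _ ≤ ε := mul_le_of_le_one_right hε0.le (by linarith)
    have h3 := hnet l
    have h4 : 20 * ε * √N ≤ δ * √N := mul_le_mul_of_nonneg_right hεδ (Real.sqrt_nonneg _)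
    have hεN : 0 ≤ ε * √N := by positivity
    linarith
  rcases le_or_gt t (1 / 2) with h | h
  · exact key t ⟨(min_le_left _ _).trans ht.1, h⟩
  · rw [← graphSum_flip]
    exact key (1 - t) ⟨(min_le_left _ _).trans (by linarith [ht.2]), by linarith⟩

end Vale.Agent.P130.Rank.FlatGraph
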