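import Vale.Agent.P130.Rank.FlatGraph.Analysis
import Vale.Agent.P130.Rank.FlatGraph.Defs

/-!
The pieces of the active harmonics at one point of the net fill disjoint bands.
-/

open Real Finset MeasureTheory
open Vale.Agent.P110.Exist (e dot e_add e_neg e_int e_add_int norm_e continuous_e)

namespace Vale.Agent.P130.Rank.FlatGraph

/-- The quadratic chirp. -/
noncomputable def chirp (σ : ℝ) (N len : ℕ) (y : ℝ) : ℂ :=
  ∑ s ∈ range len, e (σ * (s : ℝ) ^ 2 / (2 * N) - (s : ℝ) * y)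

lemma chirp_periodic (σ : ℝ) (N len : ℕ) : Function.Periodic (chirp σ N len) 1 := by
  intro y
  refine sum_congr rfl fun s _ => ?_
  rw [show σ * (s : ℝ) ^ 2 / (2 * N) - (s : ℝ) * (y + 1) =
    σ * (s : ℝ) ^ 2 / (2 * N) - (s : ℝ) * y + (((-(s : ℤ) : ℤ)) : ℝ) by push_cast; ring, e_add_int]

lemma chirp_bddMeas (σ : ℝ) (N len : ℕ) : BddMeas (chirp σ N len) := by
  refine BddMeas.of_continuous_periodic (continuous_finsetSum _ fun s _ => ?_)
    (chirp_periodic σ N len)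
  exact continuous_e.comp (by fun_prop)

lemma phase_bddMeas (k : ℕ) : BddMeas fun x : ℝ => e (x * k) := by
  refine BddMeas.of_continuous_periodic (continuous_e.comp (by fun_prop)) fun x => ?_
  show e ((x + 1) * k) = e (x * k)
  rw [show (x + 1) * (k : ℝ) = x * k + (((k : ℤ)) : ℝ) by push_cast; ring, e_add_int]

lemma conj_e (x : ℝ) : (starRingEnd ℂ) (e x) = e (-x) := (e_neg x).symm

lemma rdot_neg {D : ℕ} (n : Fin D → ℤ) (θ : Fin D → ℝ) : rdot (-n) θ = -rdot n θ := by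
  simp [rdot, Finset.sum_neg_distrib]

lemma rdot_add {D : ℕ} (n : Fin D → ℤ) (θ θ' : Fin D → ℝ) :
    rdot n (fun k => θ k + θ' k) = rdot n θ + rdot n θ' := by
  simp [rdot, mul_add, Finset.sum_add_distrib]

lemma rdot_smul {D : ℕ} (n v : Fin D → ℤ) (a : ℝ) :
    rdot n (fun k => a * (v k : ℝ)) = a * (dot n v : ℤ) := by
  simp only [rdot, dot, Finset.mul_sum, Int.cast_sum, Int.cast_mul]
  exact sum_congr rfl fun k _ => by ring

/-- A band model `Φ` of a chirp: unit modulus on `[0, b)` and mean square error at most `B`. -/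
def Band (σ : ℝ) (N len : ℕ) (b B : ℝ) (Φ : ℝ → ℂ) : Prop :=
  Measurable Φ ∧ (∀ τ, τ ∈ Set.Ico (0 : ℝ) 1 → ‖Φ τ‖ = if τ < b then 1 else 0) ∧
    ∫ τ in (0 : ℝ)..1, ‖(√σ : ℂ) * chirp σ N len τ - (√N : ℂ) * Φ τ‖ ^ 2 ≤ B

section Band

variable {σ : ℝ} {N len : ℕ} {b B : ℝ} {Φ : ℝ → ℂ}

lemma Band.bddMeas_fract (h : Band σ N len b B Φ) : BddMeas fun y => Φ (Int.fract y) := by
  refine ⟨h.1.comp measurable_fract, 1, fun y => ?_⟩
  rw [h.2.1 _ ⟨Int.fract_nonneg y, Int.fract_lt_one y⟩]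
  split_ifs <;> norm_num

lemma Band.eq_zero (h : Band σ N len b B Φ) {y : ℝ} (hy : b ≤ Int.fract y) :
    Φ (Int.fract y) = 0 := by
  have := h.2.1 _ ⟨Int.fract_nonneg y, Int.fract_lt_one y⟩
  rw [if_neg (not_lt.2 hy), norm_eq_zero] at this
  exact this

lemma Band.periodic : Function.Periodic (fun y => Φ (Int.fract y)) 1 := fun y => by
  simp [Int.fract_add_one]

lemma Band.integral_eq (h : Band σ N len b B Φ) (hb0 : 0 ≤ b) (hb1 : b ≤ 1) :
    ∫ y in (0 : ℝ)..1, ‖Φ (Int.fract y)‖ = b := by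
  have hii := fun x y => h.bddMeas_fract.norm.ii x y
  rw [← intervalIntegral.integral_add_adjacent_intervals (hii 0 b) (hii b 1)]
  have e1 : ∫ y in (0 : ℝ)..b, ‖Φ (Int.fract y)‖ = ∫ _y in (0 : ℝ)..b, (1 : ℝ) := by
    refine intervalIntegral.integral_congr_ae ?_
    filter_upwards [Measure.ae_ne volume b, Measure.ae_ne volume (1 : ℝ)] with y hy hy' hm
    rw [Set.uIoc_of_le hb0] at hm
    have hyb : y < b := lt_of_le_of_ne hm.2 hy
    rw [h.2.1 _ ⟨Int.fract_nonneg y, Int.fract_lt_one y⟩,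
      Int.fract_eq_self.2 ⟨hm.1.le, by linarith⟩, if_pos hyb]
  have e2 : ∫ y in b..1, ‖Φ (Int.fract y)‖ = ∫ _y in b..1, (0 : ℝ) := by
    refine intervalIntegral.integral_congr_ae ?_
    filter_upwards [Measure.ae_ne volume (1 : ℝ)] with y hy hm
    rw [Set.uIoc_of_le hb1] at hm
    have hy1 : y < 1 := lt_of_le_of_ne hm.2 hy
    rw [h.2.1 _ ⟨Int.fract_nonneg y, Int.fract_lt_one y⟩,
      Int.fract_eq_self.2 ⟨by linarith [hm.1], hy1⟩, if_neg (by linarith [hm.1])]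
  rw [e1, e2]
  simp

lemma Band.error_le (h : Band σ N len b B Φ) :
    ∫ y in (0 : ℝ)..1, ‖(√σ : ℂ) * chirp σ N len y - (√N : ℂ) * Φ (Int.fract y)‖ ≤ √B := by
  refine integral_norm_le_sqrt (((BddMeas.const _).mul (chirp_bddMeas σ N len)).sub
    ((BddMeas.const _).mul h.bddMeas_fract)) (le_trans (le_of_eq ?_) h.2.2)
  refine intervalIntegral.integral_congr_ae ?_
  filter_upwards [Measure.ae_ne volume (1 : ℝ)] with y hy hm
  rw [Set.uIoc_of_le zero_le_one] at hm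
  rw [Int.fract_eq_self.2 ⟨hm.1.le, lt_of_le_of_ne hm.2 hy⟩]

end Band

/-- One piece, of positive (`b = true`) or negative sign, at the offset `a`, as a function of
`x`, for the profile `f`. -/
noncomputable def pieceFn (b : Bool) (a : ℝ) (off : ℕ) (C : ℂ) (f : ℝ → ℂ) (x : ℝ) : ℂ :=
  e (x * off) * (C * (if b then f (-x - a) else (starRingEnd ℂ) (f (x - a))))

lemma pieceFn_bddMeas (b : Bool) (a : ℝ) (off : ℕ) (C : ℂ) {f : ℝ → ℂ} (hf : BddMeas f) :
    BddMeas (pieceFn b a off C f) := by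
  refine (phase_bddMeas off).mul ((BddMeas.const C).mul ?_)
  cases b
  · simpa using (hf.comp (measurable_id.sub_const a)).conj
  · simpa using hf.comp (measurable_id.neg.sub_const a)

lemma pieceFn_sub_norm (b : Bool) (a : ℝ) (off : ℕ) (C : ℂ) (f g : ℝ → ℂ) (x : ℝ) :
    ‖pieceFn b a off C f x - pieceFn b a off C g x‖ =
      ‖C‖ * ‖f (if b then -x - a else x - a) - g (if b then -x - a else x - a)‖ := by
  cases b <;>
    simp [pieceFn, ← mul_sub, ← map_sub, norm_e]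

lemma pieceFn_norm (b : Bool) (a : ℝ) (off : ℕ) (C : ℂ) (f : ℝ → ℂ) (x : ℝ) :
    ‖pieceFn b a off C f x‖ = ‖C‖ * ‖f (if b then -x - a else x - a)‖ := by
  cases b <;> simp [pieceFn, norm_e]

lemma integral_signed (b : Bool) (a : ℝ) {g : ℝ → ℝ} (hg : Function.Periodic g 1) :
    ∫ x in (0 : ℝ)..1, g (if b then -x - a else x - a) = ∫ x in (0 : ℝ)..1, g x := by
  cases b
  · simpa [sub_eq_add_neg] using (integral_shift hg (-a)).1
  · simpa [sub_eq_add_neg, add_comm] using (integral_shift hg (-a)).2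

variable {D Nb : ℕ}

/-- The sample point of the block `i` at the place `s`. -/
noncomputable def point (q N : ℕ) (v : Fin D → ℤ) (θ : Fin Nb → ℕ → Fin D → ℝ) (i : Fin Nb) (s : ℕ) :
    Fin D → ℝ :=
  fun k => θ i s k + (Nb : ℝ) / (q : ℝ) * (s : ℝ) ^ 2 / (2 * N) * (v k : ℝ)

/-- The sum of the pieces of one signed harmonic in one block is its exponential sum. -/
lemma block_eq (q N len : ℕ) (v : Fin D → ℤ) (θ : Fin Nb → ℕ → Fin D → ℝ) (i : Fin Nb)
    (p : (Fin D → ℤ) × Bool) (c : ℂ) (φ : Fin D → ℝ) (U : Finset ℕ) (G : ℕ → ℂ)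
    (hv : 0 ≤ dot p.1 v)
    (hinv : ∀ s : ℕ, ∑ u ∈ U, G u * e ((u : ℝ) * (s : ℝ) / (q : ℝ)) = e (rdot p.1 (θ i s)))
    (x : ℝ) :
    ∑ u ∈ U, pieceFn p.2 ((u : ℝ) / q) ((i : ℕ) * len)
      (c * (if p.2 then e (rdot p.1 φ) * G u else (starRingEnd ℂ) (e (rdot p.1 φ) * G u)))
      (chirp (((dot p.1 v).toNat : ℝ) * Nb / q) N len) x =
    ∑ s ∈ range len, c * e (rdot (sgnVec p) (fun k => point q N v θ i s k + φ k)) *
      e (x * (((i : ℕ) * len + s : ℕ) : ℝ)) := by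
  set σ : ℝ := ((dot p.1 v).toNat : ℝ) * Nb / q with hσ
  have hm : ((dot p.1 v).toNat : ℝ) = (dot p.1 v : ℤ) := by
    rw [← Int.cast_natCast, Int.toNat_of_nonneg hv]
  have hpt : ∀ s, rdot p.1 (fun k => point q N v θ i s k + φ k) =
      rdot p.1 (θ i s) + σ * (s : ℝ) ^ 2 / (2 * N) + rdot p.1 φ := by
    intro s
    rw [rdot_add]
    congr 1
    unfold point
    rw [rdot_add, rdot_smul, hσ, hm]
    ring
  have hsum : ∀ y : ℝ, ∑ u ∈ U, e (rdot p.1 φ) * G u * chirp σ N len (y - (u : ℝ) / q) =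
      ∑ s ∈ range len, e (rdot p.1 (fun k => point q N v θ i s k + φ k) - (s : ℝ) * y) := by
    intro y
    simp only [chirp, Finset.mul_sum]
    rw [Finset.sum_comm]
    refine sum_congr rfl fun s _ => ?_
    rw [hpt]
    have : ∀ u : ℕ, e (rdot p.1 φ) * G u *
        e (σ * (s : ℝ) ^ 2 / (2 * N) - (s : ℝ) * (y - (u : ℝ) / q)) =
        e (rdot p.1 φ + σ * (s : ℝ) ^ 2 / (2 * N) - (s : ℝ) * y) *
          (G u * e ((u : ℝ) * (s : ℝ) / (q : ℝ))) := by
      intro u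
      rw [show σ * (s : ℝ) ^ 2 / (2 * N) - (s : ℝ) * (y - (u : ℝ) / q) =
        (σ * (s : ℝ) ^ 2 / (2 * N) - (s : ℝ) * y) + (u : ℝ) * (s : ℝ) / (q : ℝ) by ring,
        e_add, show rdot p.1 φ + σ * (s : ℝ) ^ 2 / (2 * N) - (s : ℝ) * y =
        rdot p.1 φ + (σ * (s : ℝ) ^ 2 / (2 * N) - (s : ℝ) * y) by ring, e_add]
      ring
    simp only [this, ← Finset.mul_sum, hinv, ← e_add]
    congr 1
    ring
  obtain ⟨n, b⟩ := p
  cases b
  · simp only [pieceFn, sgnVec, Bool.false_eq_true, if_false, rdot_neg]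
    have : ∀ u : ℕ, e (x * (((i : ℕ) * len : ℕ) : ℝ)) * (c * (starRingEnd ℂ) (e (rdot n φ) * G u) *
        (starRingEnd ℂ) (chirp σ N len (x - (u : ℝ) / q))) =
        e (x * (((i : ℕ) * len : ℕ) : ℝ)) * c *
          (starRingEnd ℂ) (e (rdot n φ) * G u * chirp σ N len (x - (u : ℝ) / q)) := by
      intro u; simp only [map_mul]; ring
    simp only [this, ← Finset.mul_sum, ← map_sum, hsum x]
    rw [map_sum, Finset.mul_sum]
    refine sum_congr rfl fun s _ => ?_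
    rw [conj_e, Nat.cast_add, mul_add, e_add]
    rw [show -(rdot n (fun k => point q N v θ i s k + φ k) - (s : ℝ) * x) =
      -rdot n (fun k => point q N v θ i s k + φ k) + x * (s : ℝ) by ring, e_add]
    ring
  · simp only [pieceFn, sgnVec, if_true]
    have : ∀ u : ℕ, e (x * (((i : ℕ) * len : ℕ) : ℝ)) * (c * (e (rdot n φ) * G u) *
        chirp σ N len (-x - (u : ℝ) / q)) =
        e (x * (((i : ℕ) * len : ℕ) : ℝ)) * c *
          (e (rdot n φ) * G u * chirp σ N len (-x - (u : ℝ) / q)) := by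
      intro u; ring
    simp only [this, ← Finset.mul_sum, hsum (-x)]
    rw [Finset.mul_sum]
    refine sum_congr rfl fun s _ => ?_
    rw [Nat.cast_add, mul_add, e_add]
    rw [show rdot n (fun k => point q N v θ i s k + φ k) - (s : ℝ) * (-x) =
      rdot n (fun k => point q N v θ i s k + φ k) + x * (s : ℝ) by ring, e_add]
    ring

/-- Two active pieces never share a band. -/
lemma level_lower {W0 : ℕ} (S : Finset (Fin D → ℤ)) (v : Fin D → ℤ) (hv : ∀ n ∈ S, 0 < dot n v)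
    (Λ : (Fin D → ℤ) → Finset (Fin (2 * W0))) (act : Finset ((Fin D → ℤ) × Bool))
    (hact : ∀ p ∈ act, p.1 ∈ S)
    (hlab : ∀ p ∈ act, ∀ p' ∈ act, p ≠ p' →
      Disjoint (if p.2 then Λ p.1 else (Λ p.1).image Fin.rev)
        (if p'.2 then Λ p'.1 else (Λ p'.1).image Fin.rev))
    (q : ℕ) (hq : 0 < q) (hmq : ∀ n ∈ S, (dot n v).toNat < q) (hNb : 0 < Nb)
    (χ : ℕ → Fin (2 * W0)) (hχ : ∀ r < q, χ (q - 1 - r) = (χ r).rev)
    (U : Fin Nb → (Fin D → ℤ) → Finset ℕ)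
    (hU : ∀ i, ∀ n ∈ S, ∀ u ∈ U i n, ∀ l < (dot n v).toNat, u + l < q ∧ χ (u + l) ∈ Λ n)
    (hinj : ∀ i i', ∀ n ∈ S, ∀ u ∈ U i n, ∀ u' ∈ U i' n, ∀ l < (dot n v).toNat,
      ∀ l' < (dot n v).toNat, u + l = u' + l' → i = i' ∧ u = u')
    (G : Fin Nb → (Fin D → ℤ) → ℕ → ℂ) (θ : Fin Nb → ℕ → Fin D → ℝ)
    (hinv : ∀ i, ∀ n ∈ S, ∀ s : ℕ,
      ∑ u ∈ U i n, G i n u * e ((u : ℝ) * (s : ℝ) / (q : ℝ)) = e (rdot n (θ i s)))
    (N len : ℕ) (B : ℝ) (Φ : (Fin D → ℤ) → ℝ → ℂ)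
    (hΦ : ∀ n ∈ S, Band (((dot n v).toNat : ℝ) * Nb / q) N len (((dot n v).toNat : ℝ) / q) B (Φ n))
    (c : (Fin D → ℤ) × Bool → ℂ) (φ : Fin Nb → Fin D → ℝ) :
    (√N * ∑ p ∈ act, ‖c p‖ * ((∑ i, ∑ u ∈ U i p.1, ‖G i p.1 u‖) *
        √(((dot p.1 v).toNat : ℝ) / ((q : ℝ) * (Nb : ℝ))))) -
      √B * (∑ p ∈ act, ‖c p‖ * ((∑ i, ∑ u ∈ U i p.1, ‖G i p.1 u‖) /
        √(((dot p.1 v).toNat : ℝ) * Nb / q))) ≤
    ∫ x in (0 : ℝ)..1, ‖∑ p ∈ act, ∑ i : Fin Nb, ∑ s ∈ range len,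
      c p * e (rdot (sgnVec p) (fun k => point q N v θ i s k + φ i k)) *
        e (x * (((i : ℕ) * len + s : ℕ) : ℝ))‖ := by
  classical
  let Z := Σ p : ↥act, Σ i : Fin Nb, ↥(U i p.1.1)
  let mz : Z → ℕ := fun z => (dot z.1.1.1 v).toNat
  let σz : Z → ℝ := fun z => (mz z : ℝ) * Nb / q
  let uz : Z → ℕ := fun z => z.2.2.1
  let Cz : Z → ℂ := fun z => c z.1.1 * (if z.1.1.2 then e (rdot z.1.1.1 (φ z.2.1)) * G z.2.1 z.1.1.1 (uz z)
    else (starRingEnd ℂ) (e (rdot z.1.1.1 (φ z.2.1)) * G z.2.1 z.1.1.1 (uz z)))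
  let Tm : Z → ℝ → ℂ := fun z => pieceFn z.1.1.2 ((uz z : ℝ) / q) ((z.2.1 : ℕ) * len) (Cz z)
    (chirp (σz z) N len)
  let Mn : Z → ℝ → ℂ := fun z => pieceFn z.1.1.2 ((uz z : ℝ) / q) ((z.2.1 : ℕ) * len) (Cz z)
    (fun y => ((√N / √(σz z) : ℝ) : ℂ) * Φ z.1.1.1 (Int.fract y))
  have hS : ∀ z : Z, z.1.1.1 ∈ S := fun z => hact _ z.1.2
  have hm0 : ∀ z : Z, 0 < mz z := fun z => by
    have := hv _ (hS z); simp only [mz]; omega
  have hqR : (0 : ℝ) < q := by exact_mod_cast hq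
  have hσ : ∀ z : Z, 0 < √(σz z) := fun z => by
    have h1 : (0 : ℝ) < (mz z : ℝ) := by exact_mod_cast hm0 z
    have h2 : (0 : ℝ) < (Nb : ℝ) := by exact_mod_cast hNb
    exact Real.sqrt_pos.2 (by positivity)
  have hCz : ∀ z : Z, ‖Cz z‖ = ‖c z.1.1‖ * ‖G z.2.1 z.1.1.1 (uz z)‖ := fun z => by
    simp only [Cz, norm_mul]
    split_ifs <;> simp [norm_e]
  have hbd : ∀ z : Z, BddMeas fun y => ((√N / √(σz z) : ℝ) : ℂ) * Φ z.1.1.1 (Int.fract y) :=
    fun z => (BddMeas.const _).mul (hΦ _ (hS z)).bddMeas_fract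
  have hd : ∀ᵐ x : ℝ, ∀ z z', z ≠ z' → Mn z x = 0 ∨ Mn z' x = 0 := by
    filter_upwards [ae_off_grid q hq] with x hx
    intro z z' hzz
    by_contra hcon
    push Not at hcon
    set r := ⌊Int.fract (-x) * q⌋₊ with hr
    have key : ∀ z : Z, Mn z x ≠ 0 → ∃ l < mz z,
        (if z.1.1.2 then r else q - 1 - r) = uz z + l ∧
        χ r ∈ (if z.1.1.2 then Λ z.1.1.1 else (Λ z.1.1.1).image Fin.rev) := by
      intro z hz
      have hu := hU z.2.1 _ (hS z) _ z.2.2.2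
      have hum : uz z + mz z ≤ q := by
        have := (hu (mz z - 1) (by have := hm0 z; simp only [mz] at this ⊢; omega)).1
        have := hm0 z
        simp only [uz, mz] at *
        omega
      have hlt : Int.fract ((if z.1.1.2 then -x else x) - (uz z : ℝ) / q) < (mz z : ℝ) / q := by
        by_contra h
        refine hz (norm_eq_zero.1 ?_)
        have h0 := (hΦ _ (hS z)).eq_zero (not_lt.1 h)
        simp only [Mn, pieceFn_norm]
        obtain ⟨⟨⟨n, b⟩, hp⟩, i, u, hu'⟩ := z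
        cases b <;> simp_all [uz, mz]
      obtain ⟨l, hl, hfl⟩ := floor_fract_of_lt hq hum hlt
      obtain ⟨hlq, hχl⟩ := hu l hl
      have hrq : r < q := by
        rw [hr, Nat.floor_lt (mul_nonneg (Int.fract_nonneg _) hqR.le)]
        exact mul_lt_of_lt_one_left hqR (Int.fract_lt_one _)
      refine ⟨l, hl, ?_⟩
      cases hb : z.1.1.2
      · rw [hb] at hfl
        simp only [Bool.false_eq_true, if_false] at hfl ⊢
        have h1 := floor_fract_neg (y := x) hq hx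
        rw [← hr, hfl] at h1
        refine ⟨by omega, mem_image.2 ⟨χ (uz z + l), hχl, ?_⟩⟩
        rw [← hχ _ hlq, h1]
      · rw [hb] at hfl
        simp only [if_true] at hfl ⊢
        rw [← hr] at hfl
        exact ⟨hfl, hfl ▸ hχl⟩
    obtain ⟨l, hl, hq1, hχ1⟩ := key z hcon.1
    obtain ⟨l', hl', hq2, hχ2⟩ := key z' hcon.2
    by_cases hp : z.1 = z'.1
    · obtain ⟨p, i, u, hu⟩ := z
      obtain ⟨p', i', u', hu'⟩ := z'
      obtain rfl : p = p' := hp
      obtain ⟨rfl, rfl⟩ := hinj i i' p.1.1 (hact _ p.2) u hu u' hu' l hl l' hl'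
        (hq1.symm.trans hq2)
      exact hzz rfl
    · exact Finset.disjoint_left.1 (hlab _ z.1.2 _ z'.1.2 fun h => hp (Subtype.ext h)) hχ1 hχ2
  have hA : ∀ z : Z, √N / √(σz z) * ((mz z : ℝ) / q) * ‖Cz z‖ ≤ ∫ x in (0 : ℝ)..1, ‖Mn z x‖ := by
    intro z
    have hb := hΦ _ (hS z)
    simp only [Mn, pieceFn_norm, norm_mul, Complex.norm_real, Real.norm_eq_abs,
      abs_of_nonneg (div_nonneg (Real.sqrt_nonneg _) (hσ z).le),
      intervalIntegral.integral_const_mul]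
    rw [integral_signed z.1.1.2 ((uz z : ℝ) / q) (g := fun y => ‖Φ z.1.1.1 (Int.fract y)‖)
      (fun y => by simp [Int.fract_add_one]), hb.integral_eq (by positivity) ?_]
    · exact le_of_eq (by ring)
    · rw [div_le_one hqR]; exact_mod_cast (hmq _ (hS z)).le
  have hE : ∀ z : Z, ∫ x in (0 : ℝ)..1, ‖Tm z x - Mn z x‖ ≤ ‖Cz z‖ * (√B / √(σz z)) := by
    intro z
    have hb := hΦ _ (hS z)
    simp only [Tm, Mn, pieceFn_sub_norm, intervalIntegral.integral_const_mul]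
    refine mul_le_mul_of_nonneg_left ?_ (norm_nonneg _)
    rw [integral_signed z.1.1.2 ((uz z : ℝ) / q)
      (g := fun y => ‖chirp (σz z) N len y - ((√N / √(σz z) : ℝ) : ℂ) * Φ z.1.1.1 (Int.fract y)‖)
      (fun y => by simp [Int.fract_add_one, chirp_periodic (σz z) N len y])]
    rw [le_div_iff₀ (hσ z), ← intervalIntegral.integral_mul_const]
    refine le_trans (le_of_eq (intervalIntegral.integral_congr fun y _ => ?_)) hb.error_le
    have h1 : ((√(σz z) : ℝ) : ℂ) * ((√N / √(σz z) : ℝ) : ℂ) = ((√N : ℝ) : ℂ) := by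
      rw [← Complex.ofReal_mul, mul_div_cancel₀ _ (hσ z).ne']
    change _ = ‖((√(σz z) : ℝ) : ℂ) * chirp (σz z) N len y -
      ((√N : ℝ) : ℂ) * Φ z.1.1.1 (Int.fract y)‖
    rw [← h1, mul_assoc, ← mul_sub, norm_mul, Complex.norm_real, Real.norm_eq_abs,
      abs_of_pos (hσ z)]
    ring
  have main := sum_lower Tm Mn _ _ (fun z => pieceFn_bddMeas _ _ _ _ (chirp_bddMeas _ _ _))
    (fun z => pieceFn_bddMeas _ _ _ _ (hbd z)) hd hA hE
  have e1 : ∀ x, ∑ z : Z, Tm z x = ∑ p ∈ act, ∑ i : Fin Nb, ∑ s ∈ range len,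
      c p * e (rdot (sgnVec p) (fun k => point q N v θ i s k + φ i k)) *
        e (x * (((i : ℕ) * len + s : ℕ) : ℝ)) := by
    intro x
    rw [Fintype.sum_sigma, ← Finset.sum_coe_sort act]
    refine sum_congr rfl fun p _ => ?_
    rw [Fintype.sum_sigma]
    refine sum_congr rfl fun i _ => ?_
    rw [← block_eq q N len v θ i p.1 (c p.1) (φ i) (U i p.1.1) (G i p.1.1)
      (hv _ (hact _ p.2)).le (hinv i _ (hact _ p.2)) x, ← Finset.sum_coe_sort (U i p.1.1)]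
  simp only [e1] at main
  refine le_trans (le_of_eq ?_) main
  simp only [Z, Fintype.sum_sigma, hCz, uz, σz, mz]
  congr 1
  · rw [← Finset.sum_coe_sort act, Finset.mul_sum]
    refine sum_congr rfl fun p _ => ?_
    rw [Finset.sum_mul, Finset.mul_sum, Finset.mul_sum]
    refine sum_congr rfl fun i _ => ?_
    rw [← Finset.sum_coe_sort (U i p.1.1), Finset.sum_mul, Finset.mul_sum, Finset.mul_sum]
    refine sum_congr rfl fun u _ => ?_
    have h1 : (0 : ℝ) < ((dot p.1.1 v).toNat : ℝ) := by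
      have := hv _ (hact _ p.2); exact_mod_cast (by omega : 0 < (dot p.1.1 v).toNat)
    set m : ℝ := ((dot p.1.1 v).toNat : ℝ)
    have h2 : (0 : ℝ) < (Nb : ℝ) := by exact_mod_cast hNb
    have h3 : √(m / ((q : ℝ) * Nb)) * √(m * Nb / q) = m / q := by
      rw [← Real.sqrt_mul (by positivity), Real.sqrt_eq_iff_eq_sq (by positivity) (by positivity)]
      field_simp
    rw [← h3]
    have h4 : (0 : ℝ) < √(m * Nb / q) := Real.sqrt_pos.2 (by positivity)
    field_simp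
  · rw [← Finset.sum_coe_sort act, Finset.mul_sum]
    refine sum_congr rfl fun p _ => ?_
    rw [Finset.sum_div, Finset.mul_sum, Finset.mul_sum]
    refine sum_congr rfl fun i _ => ?_
    rw [← Finset.sum_coe_sort (U i p.1.1), Finset.sum_div, Finset.mul_sum, Finset.mul_sum]
    exact sum_congr rfl fun u _ => by ring

end Vale.Agent.P130.Rank.FlatGraph
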