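import Vale.Agent.P130.Rank.FlatGraph.Level

/-!
Dependence of the mean modulus of a graph sum on the point `t`.
-/

open Real Finset MeasureTheory
open Vale.Agent.P110.Exist (e dot e_add e_neg e_int e_add_int norm_e continuous_e)

namespace Vale.Agent.P130.Rank.FlatGraph

lemma norm_e_sub_le (a b : ℝ) : ‖e a - e b‖ ≤ 2 * π * |a - b| := by
  have h : e a - e b = e b * (e (a - b) - 1) := by
    rw [mul_sub, mul_one, ← e_add, add_sub_cancel]
  rw [h, norm_mul, norm_e, one_mul, e, mul_comm]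
  refine (Real.norm_exp_I_mul_ofReal_sub_one_le).trans ?_
  rw [Real.norm_eq_abs, abs_mul, abs_of_pos Real.two_pi_pos]

lemma graphSum_periodic (m : ℕ) (f : ℕ → ℕ) (t : ℝ) :
    Function.Periodic (fun τ => graphSum m f t τ) 1 := by
  intro τ
  refine sum_congr rfl fun j _ => ?_
  rw [show t * (f j : ℝ) + (τ + 1) * (j : ℝ) = t * (f j : ℝ) + τ * (j : ℝ) + (((j : ℤ)) : ℝ) by
    push_cast; ring, e_add_int]

lemma graphSum_bddMeas (m : ℕ) (f : ℕ → ℕ) (t : ℝ) : BddMeas fun τ => graphSum m f t τ :=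
  BddMeas.of_continuous_periodic
    (continuous_finsetSum _ fun j _ => continuous_e.comp (by fun_prop)) (graphSum_periodic m f t)

lemma graphSum_eq (m : ℕ) (f : ℕ → ℕ) (t τ : ℝ) :
    graphSum m f t τ = ∑ j ∈ range m, e (t * (f j : ℝ)) * e (τ * (j : ℝ)) :=
  sum_congr rfl fun _ _ => e_add _ _

/-- Moving `t` by `d` changes the mean modulus by at most `2 π R d √m`. -/
lemma graphSum_lipschitz (m R : ℕ) (f : ℕ → ℕ) (hf : ∀ j, f j < R) (t T : ℝ) :
    ∫ τ in (0 : ℝ)..1, ‖graphSum m f T τ‖ ≤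
      (∫ τ in (0 : ℝ)..1, ‖graphSum m f t τ‖) + 2 * π * R * |T - t| * √m := by
  have h1 : ∫ τ in (0 : ℝ)..1, ‖graphSum m f T τ - graphSum m f t τ‖ ≤
      √((2 * π * R * |T - t|) ^ 2 * m) := by
    refine integral_norm_le_sqrt ((graphSum_bddMeas m f T).sub (graphSum_bddMeas m f t)) ?_
    simp only [graphSum_eq, ← Finset.sum_sub_distrib, ← sub_mul]
    rw [parseval m fun j => e (T * (f j : ℝ)) - e (t * (f j : ℝ))]
    refine (Finset.sum_le_card_nsmul _ _ ((2 * π * R * |T - t|) ^ 2) fun j _ => ?_).trans_eq ?_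
    · refine pow_le_pow_left₀ (norm_nonneg _) ((norm_e_sub_le _ _).trans ?_) 2
      rw [← sub_mul, abs_mul, Nat.abs_cast]
      have h : (f j : ℝ) ≤ R := by exact_mod_cast (hf j).le
      have := mul_le_mul_of_nonneg_left h (by positivity : (0 : ℝ) ≤ 2 * π * |T - t|)
      linarith
    · rw [card_range, nsmul_eq_mul, mul_comm]
  rw [Real.sqrt_mul (sq_nonneg _), Real.sqrt_sq (by positivity)] at h1
  have hi := fun s => (graphSum_bddMeas m f s).norm.ii 0 1
  have hd := ((graphSum_bddMeas m f T).sub (graphSum_bddMeas m f t)).norm.ii 0 1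
  refine le_trans (intervalIntegral.integral_mono_on zero_le_one (hi T) ((hi t).add hd)
    fun τ _ => norm_le_norm_add_norm_sub' _ _) ?_
  rw [intervalIntegral.integral_add (hi t) hd]
  linarith

lemma graphSum_flip (m : ℕ) (f : ℕ → ℕ) (t : ℝ) :
    ∫ τ in (0 : ℝ)..1, ‖graphSum m f (1 - t) τ‖ = ∫ τ in (0 : ℝ)..1, ‖graphSum m f t τ‖ := by
  have h : ∀ τ, ‖graphSum m f (1 - t) τ‖ = ‖graphSum m f t (0 - τ)‖ := by
    intro τ
    rw [← Complex.norm_conj (graphSum m f t (0 - τ))]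
    congr 1
    simp only [graphSum, map_sum, conj_e]
    refine sum_congr rfl fun j _ => ?_
    rw [show (1 - t) * (f j : ℝ) + τ * (j : ℝ) =
      -(t * (f j : ℝ) + (0 - τ) * (j : ℝ)) + (((f j : ℤ)) : ℝ) by push_cast; ring, e_add_int]
  simp only [h]
  exact (integral_shift (g := fun τ => ‖graphSum m f t τ‖)
    (fun τ => congrArg norm (graphSum_periodic m f t τ)) 0).2

end Vale.Agent.P130.Rank.FlatGraph
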